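import Vale.Agent.P268.T.H740.Static

/-!
# P268, topological half: the Lipschitz constant in `z`

`mfam_lip`: the Lipschitz constant of `mfam` in `z` only uses the Lipschitz constants of the lifts
in the second variable.  `tame_mfam'` is `tame_mfam` with this constant.
-/

set_option linter.unusedSectionVars false

namespace Vale.Agent.P268.T.H740

open Set Filter Topology Tau

variable {E : Type*} [NormedAddCommGroup E] [NormedSpace ℝ E]

/-- The lift `Ω`, frozen at `α`. -/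
theorem lift_frozen {a : ℕ} {K D K2 : ℝ} {W : ℝ → ℝ} {Ω : ℝ → ℝ → ℝ} (h : Lift a K D W Ω)
    (h1 : 1 ≤ K2) (hW : ∀ g g', |W g' - W g| ≤ K2 * |g' - g|)
    (hΩ : ∀ α g g', |Ω α g' - Ω α g| ≤ K2 * |g' - g|) (α : ℝ) :
    Lift a K2 D W fun α' g => Ω α g + (α' - α) where
  K0 := zero_le_one.trans h1
  Wmono := h.Wmono
  Wlip := hW
  Wper := h.Wper
  Wbd := h.Wbd
  mono1 := fun g x x' hx => by show Ω α g + (x - α) ≤ Ω α g + (x' - α); linarith
  mono2 := fun α' g g' hg => by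
    show Ω α g + (α' - α) ≤ Ω α g' + (α' - α)
    have := h.mono2 α hg
    linarith
  lip1 := fun x x' g => by
    have e : Ω α g + (x' - α) - (Ω α g + (x - α)) = x' - x := by ring
    rw [e]
    have := abs_nonneg (x' - x)
    nlinarith
  lip2 := fun α' g g' => by
    have e : Ω α g' + (α' - α) - (Ω α g + (α' - α)) = Ω α g' - Ω α g := by ring
    rw [e]
    exact hΩ α g g'
  per1 := fun x g => by ring
  per2 := fun x g => by rw [h.per2]; ring
  bd := fun x g => by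
    have e : Ω α g + (x - α) - (x + a * g) = Ω α g - (α + a * g) := by ring
    rw [e]
    exact h.bd α g

theorem mfam_lip {a : ℕ} {K D K2 : ℝ} {W : ℝ → ℝ} {Ω : ℝ → ℝ → ℝ} (h : Lift a K D W Ω)
    (h1 : 1 ≤ K2) (hW : ∀ g g', |W g' - W g| ≤ K2 * |g' - g|)
    (hΩ : ∀ α g g', |Ω α g' - Ω α g| ≤ K2 * |g' - g|) {l : ℝ} (hl : 0 ≤ l) {p : ℝ × ℝ}
    (hp : p ∈ dom) (y z z' : ℂ) :
    ‖mfam a l W Ω p y z - mfam a l W Ω p y z'‖ ≤ (2 * (1 + CK a K2)) * ‖z - z'‖ := by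
  have hdom : dom ⊆ {p : ℝ × ℝ | p.2 ∈ Icc (0 : ℝ) 1} := fun p hp => hp.2.1
  have hf := lift_frozen h h1 hW hΩ y.arg
  have key := pk_lip (s := dom) (τ := fun p : ℝ × ℝ => p.1)
    (w := fun p z => ei (Tau.Wt a p.2 W z.arg))
    (u := fun p y' z => ei (Ωt a p.2 (fun α' g => Ω y.arg g + (α' - y.arg)) y'.arg z.arg)) hl
    (fun p hp => hp.1) ((phs_W hf).mono hdom) ((phs_Ω hf).mono hdom) hp y z z'
  have e : ∀ z : ℂ, mfam a l W Ω p y z = pk l (fun p : ℝ × ℝ => p.1)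
      (fun p z => ei (Tau.Wt a p.2 W z.arg))
      (fun p y' z => ei (Ωt a p.2 (fun α' g => Ω y.arg g + (α' - y.arg)) y'.arg z.arg)) p y z := by
    intro z
    simp only [mfam, plk, pk, Ωt, sub_self, add_zero]
  rw [e, e]
  exact key

/-- `tame_mfam` with the sharp Lipschitz constant. -/
theorem tame_mfam' {a : ℕ} {K D K2 : ℝ} {W : ℝ → ℝ} {Ω : ℝ → ℝ → ℝ} (h : Lift a K D W Ω)
    (h1 : 1 ≤ K2) (hW : ∀ g g', |W g' - W g| ≤ K2 * |g' - g|)
    (hΩ : ∀ α g g', |Ω α g' - Ω α g| ≤ K2 * |g' - g|) {L l : ℝ}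
    (hl : 0 ≤ l) {B : E × ℂ → ℂ} (hB : Tame (univ : Set Unit) L fun _ => B)
    (hreg : ∀ p ∈ dom, ∀ (X₀ : E) (y₀ z₀ : ℂ), z₀ ≠ 0 →
      0 ≤ (B (X₀, y₀) + mfam a l W Ω p y₀ z₀).re →
      RegAt (univ : Set Unit) (fun _ (q : (E × ℂ) × ℂ) => B q.1 + mfam a l W Ω p q.1.2 q.2) ()
        ((X₀, y₀), z₀)) :
    Tame dom (2 * (1 + CK a K2))
      (fun p (q : (E × ℂ) × ℂ) => B q.1 + mfam a l W Ω p q.1.2 q.2) where
  fam := (tame_mfam h hl hB hreg).fam
  lip := fun p hp X z z' => by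
    have e : B X + mfam a l W Ω p X.2 z - (B X + mfam a l W Ω p X.2 z') =
        mfam a l W Ω p X.2 z - mfam a l W Ω p X.2 z' := by ring
    show ‖B X + mfam a l W Ω p X.2 z - (B X + mfam a l W Ω p X.2 z')‖ ≤ _
    rw [e]
    exact mfam_lip h h1 hW hΩ hl hp X.2 z z'
  zreg := (tame_mfam h hl hB hreg).zreg

end Vale.Agent.P268.T.H740
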