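import Vale.Agent.P268.T.H740.Static
import Vale.Agent.P268.T.A306.TauCases

/-!
# P268, topological half: static regularity of `B + mfam` at `y₀ = 0`

`reg_y0`: at the points `((X₀, 0), z₀)`, `z₀ ≠ 0`, the function `B + mfam a l W Ω p` is regular,
for every `p ∈ dom` with `p.2 < 1`: along `z` if `0 < p.1`, along `y` if `p.1 = 0`.
-/

set_option linter.unusedSectionVars false

namespace Vale.Agent.P268.T.H740

open Set Filter Topology Tau

variable {E : Type*} [NormedAddCommGroup E] [NormedSpace ℝ E]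
  {E' : Type*} [NormedAddCommGroup E'] [NormedSpace ℝ E']

/-- A function of the second variable only. -/
theorem regAt_descend {F : E' × E → ℂ} {G : E → ℂ} (hFG : ∀ q z, F (q, z) = G z) {q₀ : E'}
    {z₀ : E} (h : RegAt (univ : Set Unit) (fun _ => F) () (q₀, z₀)) :
    RegAt (univ : Set Unit) (fun _ => G) () z₀ := by
  obtain ⟨k, hk0, hk1, A, U, hU, hev⟩ := h
  have hM : MRegOn k F A U := hev.self_of_nhdsWithin (mem_univ ())
  set A₁ := (ContinuousLinearMap.fst ℝ E' E).comp A with hA₁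
  set A₂ := (ContinuousLinearMap.snd ℝ E' E).comp A with hA₂
  obtain ⟨r, hr, hball⟩ := Metric.mem_nhds_iff.mp hU
  have hker : LinearMap.ker (A₂ : ℂ →ₗ[ℝ] E) = ⊥ := by
    rw [LinearMap.ker_eq_bot']
    intro c hc
    by_contra hne
    have hc' : A₂ c = 0 := hc
    have hn : 0 < ‖c‖ := norm_pos_iff.mpr hne
    set t : ℝ := r / (2 * (‖A‖ + 1) * ‖c‖) with ht
    have ht0 : 0 < t := by positivity
    have h1 : (q₀, z₀) + A (t • c) ∈ U := by
      apply hball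
      rw [Metric.mem_ball, dist_eq_norm, add_sub_cancel_left]
      refine (A.le_opNorm _).trans_lt ?_
      rw [norm_smul, Real.norm_eq_abs, abs_of_pos ht0]
      have e : ‖A‖ * (t * ‖c‖) = ‖A‖ / (‖A‖ + 1) * (r / 2) := by rw [ht]; field_simp
      rw [e]
      have h2 : ‖A‖ / (‖A‖ + 1) ≤ 1 := by
        rw [div_le_one (by positivity)]; linarith
      nlinarith
    have h2 := hM (q₀, z₀) (mem_of_mem_nhds hU) (t • c) h1
    have h3 : F ((q₀, z₀) + A (t • c)) = F (q₀, z₀) := by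
      have e : (q₀, z₀) + A (t • c) = (q₀ + A₁ (t • c), z₀) := by
        refine Prod.ext (by simp [hA₁]) ?_
        have : (A (t • c)).2 = A₂ (t • c) := rfl
        rw [Prod.snd_add, this, map_smul, hc', smul_zero, add_zero]
      rw [e, hFG, hFG]
    rw [h3, sub_self, zero_sub, norm_neg] at h2
    have h4 : 0 < ‖t • c‖ := by
      rw [norm_smul, Real.norm_eq_abs, abs_of_pos ht0]; positivity
    nlinarith
  obtain ⟨M, hM0, hMl⟩ := LinearMap.exists_antilipschitzWith (A₂ : ℂ →ₗ[ℝ] E) hker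
  have hMc : ∀ c : ℂ, ‖c‖ ≤ M * ‖A₂ c‖ := by
    intro c
    have := hMl.le_mul_dist c 0
    simpa using this
  have hM0' : (0 : ℝ) < M := by exact_mod_cast hM0
  refine ⟨k, hk0, hk1, A₂, Metric.ball z₀ (min r (r / (2 * (‖A₁‖ + 1) * M))),
    Metric.ball_mem_nhds _ (by positivity), Eventually.of_forall fun _ z hz c hc => ?_⟩
  have hz1 : ‖z - z₀‖ < r := by
    have := Metric.ball_subset_ball (min_le_left _ _) hz
    rwa [Metric.mem_ball, dist_eq_norm] at this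
  have hc1 : ‖z + A₂ c - z₀‖ < r := by
    have := Metric.ball_subset_ball (min_le_left _ _) hc
    rwa [Metric.mem_ball, dist_eq_norm] at this
  have hz2 : ‖z - z₀‖ < r / (2 * (‖A₁‖ + 1) * M) := by
    have := Metric.ball_subset_ball (min_le_right _ _) hz
    rwa [Metric.mem_ball, dist_eq_norm] at this
  have hc2 : ‖z + A₂ c - z₀‖ < r / (2 * (‖A₁‖ + 1) * M) := by
    have := Metric.ball_subset_ball (min_le_right _ _) hc
    rwa [Metric.mem_ball, dist_eq_norm] at this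
  have h1 : ‖A₂ c‖ ≤ r / ((‖A₁‖ + 1) * M) := by
    have e : A₂ c = (z + A₂ c - z₀) - (z - z₀) := by abel
    rw [e]
    refine (norm_sub_le _ _).trans ?_
    have e2 : r / ((‖A₁‖ + 1) * M) = r / (2 * (‖A₁‖ + 1) * M) + r / (2 * (‖A₁‖ + 1) * M) := by
      field_simp; ring
    rw [e2]
    linarith
  have h2 : ‖A₁ c‖ < r := by
    have h3 : ‖A₁ c‖ ≤ ‖A₁‖ * (M * (r / ((‖A₁‖ + 1) * M))) := by
      refine (A₁.le_opNorm c).trans (mul_le_mul_of_nonneg_left ?_ (norm_nonneg _))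
      exact (hMc c).trans (mul_le_mul_of_nonneg_left h1 hM0'.le)
    have e : ‖A₁‖ * (M * (r / ((‖A₁‖ + 1) * M))) = ‖A₁‖ / (‖A₁‖ + 1) * r := by field_simp
    rw [e] at h3
    refine h3.trans_lt ?_
    have h4 : ‖A₁‖ / (‖A₁‖ + 1) < 1 := by
      rw [div_lt_one (by positivity)]; linarith
    nlinarith
  have hx : (q₀, z) ∈ U := by
    apply hball
    rw [Metric.mem_ball, dist_eq_norm, Prod.mk_sub_mk, sub_self, Prod.norm_def, norm_zero]
    exact max_lt hr hz1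
  have hxc : (q₀, z) + A c = (q₀ + A₁ c, z + A₂ c) := Prod.ext (by simp [hA₁]) (by simp [hA₂])
  have hx2 : (q₀, z) + A c ∈ U := by
    apply hball
    rw [hxc, Metric.mem_ball, dist_eq_norm, Prod.mk_sub_mk, add_sub_cancel_left, Prod.norm_def]
    exact max_lt h2 hc1
  have h5 := hM _ hx c hx2
  rw [hxc, hFG, hFG] at h5
  exact h5

/-! ### The phases at a fixed parameter -/

theorem phFam_static {a : ℕ} {K D : ℝ} {W : ℝ → ℝ} {Ω : ℝ → ℝ → ℝ} (h : Lift a K D W Ω)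
    {p : ℝ × ℝ} (hp : p ∈ dom) : PhFam (univ : Set Unit) (a + 1 + K) (fun _ => p.1)
      (fun _ => Tau.Wt a p.2 W) (fun _ => Ωt a p.2 Ω) := by
  have hK := h.K0
  obtain ⟨hp1, hp2, -⟩ := hp
  obtain ⟨ht0, ht1⟩ := hp2
  have ha : (0 : ℝ) ≤ a := by positivity
  have lip : ∀ u v x c : ℝ, |u| ≤ (a + 1) * x → |v| ≤ K * x → 0 ≤ x →
      |(1 - p.2) * u + p.2 * v| ≤ (a + 1 + K) * x := by
    intro u v x c hu hv hx
    refine (abs_add_le _ _).trans ?_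
    rw [abs_mul, abs_mul, abs_of_nonneg ht0, abs_of_nonneg (by linarith : 0 ≤ 1 - p.2)]
    have h1 : (1 - p.2) * |u| ≤ 1 * ((a + 1) * x) :=
      mul_le_mul (by linarith) hu (abs_nonneg _) zero_le_one
    have h2 : p.2 * |v| ≤ 1 * (K * x) := mul_le_mul ht1 hv (abs_nonneg _) zero_le_one
    linarith
  refine ⟨by positivity, continuousOn_const, fun _ _ => hp1, fun _ => continuousOn_const,
    fun _ _ => continuousOn_const, fun _ _ g g' => ?_, fun _ _ α α' g => ?_,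
    fun _ _ α g g' => ?_, fun _ _ g => ?_, fun _ _ g α => ?_, fun _ _ α g => ?_⟩
  · have e : Tau.Wt a p.2 W g' - Tau.Wt a p.2 W g =
        (1 - p.2) * ((a + 1) * (g' - g)) + p.2 * (W g' - W g) := by rw [Tau.Wt, Tau.Wt]; ring
    rw [e]
    refine lip _ _ _ 0 ?_ (h.Wlip g g') (abs_nonneg _)
    rw [abs_mul, abs_of_nonneg (by positivity : (0 : ℝ) ≤ a + 1)]
  · have e : Ωt a p.2 Ω α' g - Ωt a p.2 Ω α g =
        (1 - p.2) * (α' - α) + p.2 * (Ω α' g - Ω α g) := by rw [Ωt, Ωt]; ring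
    rw [e]
    refine lip _ _ _ 0 ?_ (h.lip1 α α' g) (abs_nonneg _)
    have := abs_nonneg (α' - α)
    nlinarith
  · have e : Ωt a p.2 Ω α g' - Ωt a p.2 Ω α g =
        (1 - p.2) * (a * (g' - g)) + p.2 * (Ω α g' - Ω α g) := by rw [Ωt, Ωt]; ring
    rw [e]
    refine lip _ _ _ 0 ?_ (h.lip2 α g g') (abs_nonneg _)
    rw [abs_mul, abs_of_nonneg ha]
    have := abs_nonneg (g' - g)
    nlinarith
  · show ei (Tau.Wt a p.2 W (g + 2 * Real.pi)) = ei (Tau.Wt a p.2 W g)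
    have e : Tau.Wt a p.2 W (g + 2 * Real.pi) =
        Tau.Wt a p.2 W g + ((a + 1 : ℕ) : ℝ) * (2 * Real.pi) := by
      rw [Tau.Wt, Tau.Wt, h.Wper]; push_cast; ring
    rw [e, ei_add, ei_nat, mul_one]
  · show ei (Ωt a p.2 Ω (α + 2 * Real.pi) g) = ei (Ωt a p.2 Ω α g)
    have e : Ωt a p.2 Ω (α + 2 * Real.pi) g = Ωt a p.2 Ω α g + 2 * Real.pi := by
      rw [Ωt, Ωt, h.per1]; ring
    rw [e, ei_add, ei_two_pi, mul_one]
  · show ei (Ωt a p.2 Ω α (g + 2 * Real.pi)) = ei (Ωt a p.2 Ω α g)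
    have e : Ωt a p.2 Ω α (g + 2 * Real.pi) = Ωt a p.2 Ω α g + (a : ℝ) * (2 * Real.pi) := by
      rw [Ωt, Ωt, h.per2]; ring
    rw [e, ei_add, ei_nat, mul_one]

theorem slope_Wt {a : ℕ} {K D : ℝ} {W : ℝ → ℝ} {Ω : ℝ → ℝ → ℝ} (h : Lift a K D W Ω)
    {t : ℝ} (ht : t ∈ Icc (0 : ℝ) 1) (g g' : ℝ) :
    (1 - t) * (a + 1) * (g' - g) ^ 2 ≤ (Tau.Wt a t W g' - Tau.Wt a t W g) * (g' - g) := by
  have h1 : 0 ≤ (W g' - W g) * (g' - g) := by
    rcases le_total g g' with hg | hg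
    · exact mul_nonneg (sub_nonneg.mpr (h.Wmono hg)) (sub_nonneg.mpr hg)
    · exact mul_nonneg_of_nonpos_of_nonpos (sub_nonpos.mpr (h.Wmono hg)) (sub_nonpos.mpr hg)
  have e : (Tau.Wt a t W g' - Tau.Wt a t W g) * (g' - g) =
      (1 - t) * (a + 1) * (g' - g) ^ 2 + t * ((W g' - W g) * (g' - g)) := by
    rw [Tau.Wt, Tau.Wt]; ring
  rw [e]
  have := mul_nonneg ht.1 h1
  linarith

theorem slope2_Ωt {a : ℕ} {K D : ℝ} {W : ℝ → ℝ} {Ω : ℝ → ℝ → ℝ} (h : Lift a K D W Ω)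
    {t : ℝ} (ht : t ∈ Icc (0 : ℝ) 1) (α g g' : ℝ) :
    (1 - t) * a * (g' - g) ^ 2 ≤ (Ωt a t Ω α g' - Ωt a t Ω α g) * (g' - g) := by
  have h1 : 0 ≤ (Ω α g' - Ω α g) * (g' - g) := by
    rcases le_total g g' with hg | hg
    · exact mul_nonneg (sub_nonneg.mpr (h.mono2 α hg)) (sub_nonneg.mpr hg)
    · exact mul_nonneg_of_nonpos_of_nonpos (sub_nonpos.mpr (h.mono2 α hg)) (sub_nonpos.mpr hg)
  have e : (Ωt a t Ω α g' - Ωt a t Ω α g) * (g' - g) =
      (1 - t) * a * (g' - g) ^ 2 + t * ((Ω α g' - Ω α g) * (g' - g)) := by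
    rw [Ωt, Ωt]; ring
  rw [e]
  have := mul_nonneg ht.1 h1
  linarith

/-- The limit function at `y = 0` is regular. -/
theorem reg_core {a : ℕ} {K D : ℝ} {W : ℝ → ℝ} {Ω : ℝ → ℝ → ℝ} (h : Lift a K D W Ω)
    {p : ℝ × ℝ} (hp : p ∈ dom) (hp2 : p.2 < 1) (hp1 : 0 < p.1) {z₀ : ℂ} (hz : z₀ ≠ 0) :
    RegAt (univ : Set Unit) (fun _ (z : ℂ) => (p.1 * ‖z‖) • ei (Tau.Wt a p.2 W z.arg)) () z₀ := by
  have hPh := phFam_static h hp
  have hz0 : 0 < ‖z₀‖ := norm_pos_iff.mpr hz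
  have key := case_zin (E := ℝ) hPh (B := fun _ => 0) (L := 0) le_rfl (by simp)
    (y₀ := 1) (z₀ := z₀) one_ne_zero hz (l := 0) le_rfl (θ₀ := ()) (mem_univ _) hp1
    (κ := (1 - p.2) * (a + 1)) (κ' := a + 1 + K) hPh.K0
    ⟨1, one_pos, Eventually.of_forall fun _ g g' _ _ => slope_Wt h hp.2.1 g g'⟩
    ⟨1, one_pos, Eventually.of_forall fun _ α g g' _ _ _ => ⟨?_, hPh.lip2 () (mem_univ _) _ _ _⟩⟩
    (by simpa using hz0) ?_ (0 : ℝ)
  · refine regAt_descend (F := fun q : (ℝ × ℂ) × ℂ => (0 : ℂ) +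
      plk 0 p.1 (Tau.Wt a p.2 W) (Ωt a p.2 Ω) q.1.2 q.2) (q₀ := ((0 : ℝ), (1 : ℂ)))
      (fun q z => ?_) key
    show (0 : ℂ) + plk 0 p.1 (Tau.Wt a p.2 W) (Ωt a p.2 Ω) q.2 z = _
    have hb : bm 0 q.2 z = 0 := by
      rw [bm, zero_mul]
      exact min_eq_left (norm_nonneg _)
    rw [plk, hb, sub_zero, zero_smul, add_zero, zero_add]
  · have h1 := slope2_Ωt h hp.2.1 α g g'
    refine le_trans ?_ h1
    rw [zero_mul]
    have : 0 ≤ 1 - p.2 := by linarith [hp.2.1.2]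
    positivity
  · rw [zero_mul, zero_mul, zero_mul, sub_zero]
    have : 0 < 1 - p.2 := by linarith
    positivity

/-- **`y₀ = 0`, direction of `z`.** -/
theorem reg_y0_z {a : ℕ} {K D : ℝ} {W : ℝ → ℝ} {Ω : ℝ → ℝ → ℝ} (h : Lift a K D W Ω)
    {l : ℝ} (hl : 0 ≤ l) {B : E × ℂ → ℂ} {p : ℝ × ℝ} (hp : p ∈ dom) (hp2 : p.2 < 1)
    (hp1 : 0 < p.1) (X₀ : E) {z₀ : ℂ} (hz : z₀ ≠ 0) :
    RegAt (univ : Set Unit) (fun _ (q : (E × ℂ) × ℂ) => B q.1 + mfam a l W Ω p q.1.2 q.2) ()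
      ((X₀, 0), z₀) := by
  have hdom : dom ⊆ {p : ℝ × ℝ | p.2 ∈ Icc (0 : ℝ) 1} := fun p hp => hp.2.1
  have hw := (phs_W h).mono hdom
  have hu := (phs_Ω h).mono hdom
  have hz0 : 0 < ‖z₀‖ := norm_pos_iff.mpr hz
  set r : ℝ := ‖z₀‖ / 2 with hr
  have hr0 : 0 < r := by positivity
  have hC := hw.C0
  refine RegAt.snd (x₀ := ((X₀, (0 : ℂ)), z₀)) (E := E × ℂ) (E' := ℂ) ?_
  refine regAt_of_limit (reg_core h hp hp2 hp1 hz) fun ε hε => ?_
  refine ⟨Metric.ball z₀ r, Metric.ball_mem_nhds _ hr0, ?_⟩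
  -- the modulus of `y` is small
  have hcont : ContinuousAt (fun q : Unit × (E × ℂ) => l * ‖q.2.2‖) ((), (X₀, (0 : ℂ))) := by
    fun_prop
  set η : ℝ := min r (ε * r / (2 * (CK a K + 1))) with hη
  have hη0 : 0 < η := by positivity
  have hev : ∀ᶠ q : Unit × (E × ℂ) in 𝓝[univ ×ˢ univ] ((), (X₀, (0 : ℂ))), l * ‖q.2.2‖ < η := by
    have h1 : (fun q : Unit × (E × ℂ) => l * ‖q.2.2‖) ((), (X₀, (0 : ℂ))) < η := by
      simpa using hη0
    exact (hcont.eventually_lt continuousAt_const h1).filter_mono nhdsWithin_le_nhds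
  filter_upwards [hev] with q hq z hz' z' hz''
  have hzr : r ≤ ‖z‖ := by
    rw [Metric.mem_ball, dist_eq_norm] at hz'
    have := norm_sub_norm_le z₀ z
    rw [norm_sub_rev] at this
    linarith
  have hzr' : r ≤ ‖z'‖ := by
    rw [Metric.mem_ball, dist_eq_norm] at hz''
    have := norm_sub_norm_le z₀ z'
    rw [norm_sub_rev] at this
    linarith
  have hzn : z ≠ 0 := norm_pos_iff.mp (hr0.trans_le hzr)
  have hzn' : z' ≠ 0 := norm_pos_iff.mp (hr0.trans_le hzr')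
  obtain ⟨u, X, y⟩ := q
  simp only at hq
  have hqr : l * ‖y‖ < r := hq.trans_le (min_le_left _ _)
  have hb : bm l y z = l * ‖y‖ := min_eq_left (hqr.le.trans hzr)
  have hb' : bm l y z' = l * ‖y‖ := min_eq_left (hqr.le.trans hzr')
  have hly : 0 ≤ l * ‖y‖ := by positivity
  -- the difference
  have hn := norm_ph_sub_le hr0 hzr hzr'
  set w : ℂ → ℂ := fun z => ei (Tau.Wt a p.2 W z.arg) with hwd
  set v : ℂ → ℂ := fun z => ei (Ωt a p.2 Ω y.arg z.arg) with hvd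
  have e1 : B (X, y) + mfam a l W Ω p y z - (p.1 * ‖z‖) • w z -
      (B (X, y) + mfam a l W Ω p y z' - (p.1 * ‖z'‖) • w z') =
      (l * ‖y‖) • ((v z - v z') - p.1 • (w z - w z')) := by
    rw [mfam, mfam, plk, plk, hb, hb', hwd, hvd]
    simp only [Complex.real_smul]
    push_cast
    ring
  show ‖B (X, y) + mfam a l W Ω p y z - (p.1 * ‖z‖) • ei (Tau.Wt a p.2 W z.arg) -
      (B (X, y) + mfam a l W Ω p y z' - (p.1 * ‖z'‖) • ei (Tau.Wt a p.2 W z'.arg))‖ ≤ _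
  have e1' := e1
  simp only [hwd] at e1'
  rw [e1', norm_smul, Real.norm_eq_abs, abs_of_nonneg hly]
  rcases eq_or_ne y 0 with rfl | hy
  · rw [norm_zero, mul_zero, zero_mul]
    positivity
  have h1 : ‖v z - v z'‖ ≤ CK a K * (r⁻¹ * ‖z - z'‖) := by
    have := hu.ang p hp y z y z' hy hzn hy hzn'
    rw [sub_self, norm_zero, zero_add] at this
    exact this.trans (mul_le_mul_of_nonneg_left hn hC)
  have h2 : ‖w z - w z'‖ ≤ CK a K * (r⁻¹ * ‖z - z'‖) := by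
    have := hw.ang p hp 1 z 1 z' one_ne_zero hzn one_ne_zero hzn'
    rw [sub_self, norm_zero, zero_add] at this
    exact this.trans (mul_le_mul_of_nonneg_left hn hC)
  have h3 : ‖(v z - v z') - p.1 • (w z - w z')‖ ≤ 2 * (CK a K * (r⁻¹ * ‖z - z'‖)) := by
    refine (norm_sub_le _ _).trans ?_
    rw [norm_smul, Real.norm_eq_abs, abs_of_nonneg hp.1.1]
    have h4 : p.1 * ‖w z - w z'‖ ≤ 1 * ‖w z - w z'‖ :=
      mul_le_mul_of_nonneg_right hp.1.2 (norm_nonneg _)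
    linarith
  calc l * ‖y‖ * ‖(v z - v z') - p.1 • (w z - w z')‖
      ≤ (ε * r / (2 * (CK a K + 1))) * (2 * (CK a K * (r⁻¹ * ‖z - z'‖))) :=
        mul_le_mul (hq.le.trans (min_le_right _ _)) h3 (norm_nonneg _) (by positivity)
    _ = CK a K / (CK a K + 1) * (ε * ‖z - z'‖) := by field_simp
    _ ≤ 1 * (ε * ‖z - z'‖) := by
        refine mul_le_mul_of_nonneg_right ?_ (by positivity)
        rw [div_le_one (by positivity)]; linarith
    _ = _ := one_mul _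

/-- **`y₀ = 0`, direction of `y`.** -/
theorem reg_y0_y {a : ℕ} {W : ℝ → ℝ} {Ω : ℝ → ℝ → ℝ} {L l : ℝ} (hL : 0 ≤ L) (hLl : L < l)
    {B : E × ℂ → ℂ} (hB : ∀ X y y', ‖B (X, y) - B (X, y')‖ ≤ L * ‖y - y'‖) (X₀ : E) {z₀ : ℂ}
    (hz : z₀ ≠ 0) :
    RegAt (univ : Set Unit) (fun _ (q : (E × ℂ) × ℂ) => B q.1 + mfam a l W Ω (0, 0) q.1.2 q.2) ()
      ((X₀, 0), z₀) := by
  have hl : 0 < l := hL.trans_lt hLl
  have hz0 : 0 < ‖z₀‖ := norm_pos_iff.mpr hz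
  set v : ℂ → ℂ := fun z => ei (a * z.arg) with hv
  have hvn : ∀ z, ‖v z‖ = 1 := fun z => norm_ei _
  have hvc : ContinuousAt v z₀ := by
    have e : v =ᶠ[𝓝 z₀] fun z => ph z ^ a := by
      filter_upwards [continuousAt_id.eventually_ne hz] with z hz'
      rw [hv, ph_eq_exp (z := z) hz', ← Complex.exp_nat_mul]
      show ei (a * z.arg) = _
      rw [ei]
      congr 1
      push_cast
      ring
    exact ((continuousAt_ph hz).pow a).congr e.symm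
  set μ : ℂ := (l * v z₀)⁻¹ with hμ
  have hv0 : v z₀ ≠ 0 := ei_ne_zero _
  have hlc : (l : ℂ) ≠ 0 := by exact_mod_cast hl.ne'
  have hμn : ‖μ‖ = l⁻¹ := by
    rw [hμ, norm_inv, norm_mul, hvn, mul_one, Complex.norm_real, Real.norm_eq_abs,
      abs_of_pos hl]
  -- constants
  set k : ℝ := L / l with hk
  have hk0 : 0 ≤ k := by positivity
  have hk1 : k < 1 := (div_lt_one hl).mpr hLl
  have hev : ∀ᶠ z in 𝓝 z₀, ‖v z - v z₀‖ < (1 - k) / 2 := by
    have h1 : ContinuousAt (fun z => ‖v z - v z₀‖) z₀ := (hvc.sub_const _).norm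
    have h2 := h1.eventually_lt (continuousAt_const (y := (1 - k) / 2)) (by
      rw [sub_self, norm_zero]; linarith)
    exact h2
  set A : ℂ →L[ℝ] (E × ℂ) × ℂ := ((ContinuousLinearMap.inl ℝ (E × ℂ) ℂ).comp
    (ContinuousLinearMap.inr ℝ E ℂ)).comp (ContinuousLinearMap.mul ℝ ℂ μ) with hA
  have hAc : ∀ c : ℂ, A c = ((0, μ * c), 0) := fun c => rfl
  have hU : ∀ᶠ q : (E × ℂ) × ℂ in 𝓝 ((X₀, (0 : ℂ)), z₀), l * ‖q.1.2‖ < ‖q.2‖ := by
    have h1 : ContinuousAt (fun q : (E × ℂ) × ℂ => l * ‖q.1.2‖) ((X₀, (0 : ℂ)), z₀) := by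
      fun_prop
    have h2 : ContinuousAt (fun q : (E × ℂ) × ℂ => ‖q.2‖) ((X₀, (0 : ℂ)), z₀) := by fun_prop
    exact h1.eventually_lt h2 (by simpa using hz0)
  have hU2 : ∀ᶠ q : (E × ℂ) × ℂ in 𝓝 ((X₀, (0 : ℂ)), z₀), ‖v q.2 - v z₀‖ < (1 - k) / 2 :=
    (continuousAt_snd (p := ((X₀, (0 : ℂ)), z₀))).eventually hev
  refine ⟨k + (1 - k) / 2, by linarith, by linarith, A,
    {q | l * ‖q.1.2‖ < ‖q.2‖ ∧ ‖v q.2 - v z₀‖ < (1 - k) / 2}, hU.and hU2,
    Eventually.of_forall fun _ q hq c hc => ?_⟩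
  obtain ⟨⟨X, y⟩, z⟩ := q
  rw [hAc] at hc ⊢
  simp only [Prod.mk_add_mk, add_zero] at hc ⊢
  obtain ⟨hq1, hq2⟩ := hq
  obtain ⟨hc1, -⟩ := hc
  simp only at hq1 hq2 hc1
  -- the link is linear in `y`
  have hm : ∀ y : ℂ, l * ‖y‖ < ‖z‖ → mfam a l W Ω (0, 0) y z = l * y * v z := by
    intro y hy
    have hb : bm l y z = l * ‖y‖ := min_eq_left hy.le
    have e : Ωt a 0 Ω y.arg z.arg = y.arg + a * z.arg := by rw [Ωt]; ring
    show plk l 0 (Tau.Wt a 0 W) (Ωt a 0 Ω) y z = _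
    rw [plk, hb, zero_mul, zero_smul, zero_add, e, ei_add, Complex.real_smul]
    have e2 : (‖y‖ : ℂ) * ei y.arg = y := by
      rw [ei]; exact Complex.norm_mul_exp_arg_mul_I y
    have e3 : ((l * ‖y‖ : ℝ) : ℂ) * (ei y.arg * ei (a * z.arg)) =
        l * ((‖y‖ : ℂ) * ei y.arg) * ei (a * z.arg) := by push_cast; ring
    rw [e3, e2]
  show ‖B (X, y + μ * c) + mfam a l W Ω (0, 0) (y + μ * c) z -
    (B (X, y) + mfam a l W Ω (0, 0) y z) - c‖ ≤ _
  rw [hm _ hc1, hm _ hq1]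
  have e : B (X, y + μ * c) + l * (y + μ * c) * v z - (B (X, y) + l * y * v z) - c =
      (B (X, y + μ * c) - B (X, y)) + (v z - v z₀) * (v z₀)⁻¹ * c := by
    rw [hμ]; field_simp; ring
  rw [e]
  refine (norm_add_le _ _).trans ?_
  rw [add_mul]
  refine add_le_add ?_ ?_
  · refine (hB X _ _).trans ?_
    rw [add_sub_cancel_left, norm_mul, hμn, hk]
    apply le_of_eq
    field_simp
  · rw [norm_mul, norm_mul, norm_inv, hvn, inv_one, mul_one]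
    exact mul_le_mul_of_nonneg_right hq2.le (norm_nonneg _)

/-- **`y₀ = 0`.** -/
theorem reg_y0 {a : ℕ} {K D : ℝ} {W : ℝ → ℝ} {Ω : ℝ → ℝ → ℝ} (h : Lift a K D W Ω) {L l : ℝ}
    (hL : 0 ≤ L) (hLl : L < l) {B : E × ℂ → ℂ}
    (hB : ∀ X y y', ‖B (X, y) - B (X, y')‖ ≤ L * ‖y - y'‖) {p : ℝ × ℝ} (hp : p ∈ dom)
    (hp2 : p.2 < 1) (X₀ : E) {z₀ : ℂ} (hz : z₀ ≠ 0) :
    RegAt (univ : Set Unit) (fun _ (q : (E × ℂ) × ℂ) => B q.1 + mfam a l W Ω p q.1.2 q.2) ()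
      ((X₀, 0), z₀) := by
  rcases hp.1.1.eq_or_lt with h0 | h0
  · have h2 : p.2 = 0 := by
      rcases hp.2.2 with h2 | h2
      · exact h2
      · rw [h2] at h0; exact absurd h0 zero_ne_one
    have e : p = (0, 0) := Prod.ext h0.symm h2
    rw [e]
    exact reg_y0_y hL hLl hB X₀ hz
  · exact reg_y0_z h (hL.trans hLl.le) hp hp2 h0 X₀ hz

end Vale.Agent.P268.T.H740
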