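import Vale.Agent.P268.T.H740.Plk

/-!
# P268, topological half: static regularity suffices

`tame_of_static`: the family `B + pk t` is tame as soon as each function `B + pk t` is regular
where it has to be.  `tame_mfam`: the same for the path `mfam` of quasi-periodic lifts.
-/

set_option linter.unusedSectionVars false

namespace Vale.Agent.P268.T.H740

open Set Filter Topology Tau

variable {E : Type*} [NormedAddCommGroup E] [NormedSpace ℝ E]
  {Θ : Type*} [TopologicalSpace Θ]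

theorem SmallLip.congr {Z : Type*} [NormedAddCommGroup Z] {s : Set Θ} {D D' : Θ → E → Z}
    {t₀ : Θ} {x₀ : E} (h : SmallLip s D t₀ x₀) (e : ∀ t x, D t x = D' t x) :
    SmallLip s D' t₀ x₀ := by
  intro ε hε
  obtain ⟨U, hU, hev⟩ := h ε hε
  refine ⟨U, hU, ?_⟩
  filter_upwards [hev] with t ht x hx x' hx'
  rw [← e, ← e]
  exact ht x hx x' hx'

section Pk

variable {s : Set Θ} {l C : ℝ} {τ : Θ → ℝ} {w : Θ → ℂ → ℂ} {u : Θ → ℂ → ℂ → ℂ}

/-- The window part: `b • Δ` for small phases `Δ`. -/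
theorem window_small {r δ : ℝ} (hl : 0 ≤ l) (hr : 0 < r) (hδ : 0 ≤ δ) {Δ : ℂ → ℂ → ℂ}
    (h1 : ∀ y z, y ≠ 0 → z ≠ 0 → ‖Δ y z‖ ≤ δ)
    (h2 : ∀ y z y' z', y ≠ 0 → z ≠ 0 → y' ≠ 0 → z' ≠ 0 →
      ‖Δ y z - Δ y' z'‖ ≤ δ * (‖ph y - ph y'‖ + ‖ph z - ph z'‖))
    {y z y' z' : ℂ} (hz : r ≤ ‖z‖) (hz' : r ≤ ‖z'‖) (hzu : ‖z‖ ≤ 4 * r) (hzu' : ‖z'‖ ≤ 4 * r) :
    ‖bm l y z • Δ y z - bm l y' z' • Δ y' z'‖ ≤ δ * (2 * l * ‖y - y'‖ + 5 * ‖z - z'‖) := by
  have key : ∀ y z y' z' : ℂ, r ≤ ‖z‖ → r ≤ ‖z'‖ → ‖z'‖ ≤ 4 * r → ‖y'‖ ≤ ‖y‖ →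
      ‖bm l y z • Δ y z - bm l y' z' • Δ y' z'‖ ≤ δ * (2 * l * ‖y - y'‖ + 5 * ‖z - z'‖) := by
    intro y z y' z' hz hz' hzu' hyy
    have hz0 : z ≠ 0 := norm_pos_iff.mp (hr.trans_le hz)
    have hz0' : z' ≠ 0 := norm_pos_iff.mp (hr.trans_le hz')
    have hb := abs_bm_sub_le hl y z y' z'
    have n1 := norm_nonneg (y - y')
    have n2 := norm_nonneg (z - z')
    rcases eq_or_ne y' 0 with rfl | hy'
    · rw [bm_zero_left, sub_zero] at hb
      rw [bm_zero_left, zero_smul, sub_zero]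
      rcases eq_or_ne y 0 with rfl | hy
      · rw [bm_zero_left, zero_smul, norm_zero]
        positivity
      · rw [norm_smul, Real.norm_eq_abs]
        calc |bm l y z| * ‖Δ y z‖ ≤ (l * ‖y - 0‖ + ‖z - z'‖) * δ :=
              mul_le_mul hb (h1 y z hy hz0) (norm_nonneg _) (by positivity)
          _ = δ * (l * ‖y - 0‖ + ‖z - z'‖) := mul_comm _ _
          _ ≤ _ := by
              refine mul_le_mul_of_nonneg_left ?_ hδ
              have : 0 ≤ l * ‖y - 0‖ := mul_nonneg hl n1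
              linarith
    · have hy : y ≠ 0 := norm_pos_iff.mp ((norm_pos_iff.mpr hy').trans_le hyy)
      have e : bm l y z • Δ y z - bm l y' z' • Δ y' z' =
          (bm l y z - bm l y' z') • Δ y z + bm l y' z' • (Δ y z - Δ y' z') := by
        rw [sub_smul, smul_sub]; abel
      have hb0 := bm_nonneg hl y' z'
      have p1 : bm l y' z' * ‖ph y - ph y'‖ ≤ l * ‖y - y'‖ := by
        calc bm l y' z' * ‖ph y - ph y'‖ ≤ (l * ‖y'‖) * ‖ph y - ph y'‖ :=
              mul_le_mul_of_nonneg_right (bm_le_left l y' z') (norm_nonneg _)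
          _ = l * (‖y'‖ * ‖ph y - ph y'‖) := by ring
          _ ≤ l * ‖y - y'‖ := mul_le_mul_of_nonneg_left (norm_mul_ph_sub_le hy' hyy) hl
      have p2 : bm l y' z' * ‖ph z - ph z'‖ ≤ 4 * ‖z - z'‖ := by
        calc bm l y' z' * ‖ph z - ph z'‖ ≤ (4 * r) * (r⁻¹ * ‖z - z'‖) :=
              mul_le_mul ((bm_le l y' z').trans hzu') (norm_ph_sub_le hr hz hz')
                (norm_nonneg _) (by positivity)
          _ = 4 * ‖z - z'‖ := by field_simp
      rw [e]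
      refine (norm_add_le _ _).trans ?_
      rw [norm_smul, norm_smul, Real.norm_eq_abs, Real.norm_eq_abs, abs_of_nonneg hb0]
      have q1 : |bm l y z - bm l y' z'| * ‖Δ y z‖ ≤ (l * ‖y - y'‖ + ‖z - z'‖) * δ :=
        mul_le_mul hb (h1 y z hy hz0) (norm_nonneg _) (by positivity)
      have q2 : bm l y' z' * ‖Δ y z - Δ y' z'‖ ≤ δ * (l * ‖y - y'‖ + 4 * ‖z - z'‖) := by
        calc bm l y' z' * ‖Δ y z - Δ y' z'‖
            ≤ bm l y' z' * (δ * (‖ph y - ph y'‖ + ‖ph z - ph z'‖)) :=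
              mul_le_mul_of_nonneg_left (h2 y z y' z' hy hz0 hy' hz0') hb0
          _ = δ * (bm l y' z' * ‖ph y - ph y'‖ + bm l y' z' * ‖ph z - ph z'‖) := by ring
          _ ≤ _ := mul_le_mul_of_nonneg_left (add_le_add p1 p2) hδ
      calc _ ≤ (l * ‖y - y'‖ + ‖z - z'‖) * δ + δ * (l * ‖y - y'‖ + 4 * ‖z - z'‖) :=
            add_le_add q1 q2
        _ = _ := by ring
  rcases le_total ‖y'‖ ‖y‖ with h | h
  · exact key y z y' z' hz hz' hzu' h
  · rw [norm_sub_rev, norm_sub_rev y, norm_sub_rev z]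
    exact key y' z' y z hz' hz hzu h

/-- The core part: `(|z| - b) • ω` for small phases `ω`. -/
theorem core_small {r δ : ℝ} (hl : 0 ≤ l) (hr : 0 < r) (hδ : 0 ≤ δ) {ω : ℂ → ℂ}
    (h1 : ∀ z, z ≠ 0 → ‖ω z‖ ≤ δ)
    (h2 : ∀ z z', z ≠ 0 → z' ≠ 0 → ‖ω z - ω z'‖ ≤ δ * ‖ph z - ph z'‖)
    {y z y' z' : ℂ} (hz : r ≤ ‖z‖) (hz' : r ≤ ‖z'‖) (hzu' : ‖z'‖ ≤ 4 * r) :
    ‖(‖z‖ - bm l y z) • ω z - (‖z'‖ - bm l y' z') • ω z'‖ ≤
      δ * (l * ‖y - y'‖ + 5 * ‖z - z'‖) := by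
  have hz0 : z ≠ 0 := norm_pos_iff.mp (hr.trans_le hz)
  have hz0' : z' ≠ 0 := norm_pos_iff.mp (hr.trans_le hz')
  have e : (‖z‖ - bm l y z) • ω z - (‖z'‖ - bm l y' z') • ω z' =
      ((‖z‖ - bm l y z) - (‖z'‖ - bm l y' z')) • ω z + (‖z'‖ - bm l y' z') • (ω z - ω z') := by
    rw [sub_smul (‖z‖ - bm l y z), smul_sub]; abel
  have hb := abs_sub_bm_sub_le hl y z y' z'
  have hb0 := sub_bm_nonneg l y' z'
  have hb1 : ‖z'‖ - bm l y' z' ≤ 4 * r := by
    have := bm_nonneg hl y' z'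
    linarith
  rw [e]
  refine (norm_add_le _ _).trans ?_
  rw [norm_smul, norm_smul, Real.norm_eq_abs, Real.norm_eq_abs, abs_of_nonneg hb0]
  have n1 := norm_nonneg (y - y')
  have n2 := norm_nonneg (z - z')
  have q1 : |(‖z‖ - bm l y z) - (‖z'‖ - bm l y' z')| * ‖ω z‖ ≤
      (l * ‖y - y'‖ + ‖z - z'‖) * δ :=
    mul_le_mul hb (h1 z hz0) (norm_nonneg _) (by positivity)
  have q2 : (‖z'‖ - bm l y' z') * ‖ω z - ω z'‖ ≤ δ * (4 * ‖z - z'‖) := by
    calc (‖z'‖ - bm l y' z') * ‖ω z - ω z'‖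
        ≤ (4 * r) * (δ * (r⁻¹ * ‖z - z'‖)) :=
          mul_le_mul hb1 ((h2 z z' hz0 hz0').trans
            (mul_le_mul_of_nonneg_left (norm_ph_sub_le hr hz hz') hδ)) (norm_nonneg _)
            (by positivity)
      _ = δ * (4 * ‖z - z'‖) := by field_simp
  calc _ ≤ (l * ‖y - y'‖ + ‖z - z'‖) * δ + δ * (4 * ‖z - z'‖) := add_le_add q1 q2
    _ = _ := by ring

theorem smallLip_pk (hl : 0 ≤ l) (hτ : ∀ t ∈ s, τ t ∈ Icc (0 : ℝ) 1) (hτc : ContinuousOn τ s)
    (hw : Phs s C fun t _ z => w t z) (hu : Phs s C u) {t₀ : Θ} (ht₀ : t₀ ∈ s) {X₀ : E}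
    {y₀ z₀ : ℂ} (hz₀ : z₀ ≠ 0) :
    SmallLip s (fun t (p : (E × ℂ) × ℂ) => pk l τ w u t p.1.2 p.2 - pk l τ w u t₀ p.1.2 p.2) t₀
      ((X₀, y₀), z₀) := by
  intro ε hε
  have hC := hw.C0
  have hn : 0 < ‖z₀‖ := norm_pos_iff.mpr hz₀
  set M : ℝ := (2 + C) * (3 * l + 10) with hM
  have hM0 : 0 < M := by positivity
  set ε' : ℝ := ε / M with hε'
  have hε'0 : 0 < ε' := by positivity
  have hr : ∀ z ∈ Metric.ball z₀ (‖z₀‖ / 2), ‖z₀‖ / 2 ≤ ‖z‖ ∧ ‖z‖ ≤ 4 * (‖z₀‖ / 2) := by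
    intro z hz
    rw [Metric.mem_ball, dist_eq_norm] at hz
    have h1 := norm_sub_norm_le z₀ z
    have h2 := norm_sub_norm_le z z₀
    rw [norm_sub_rev] at h1
    constructor <;> linarith
  refine ⟨{p | p.2 ∈ Metric.ball z₀ (‖z₀‖ / 2)},
    continuous_snd.continuousAt.preimage_mem_nhds (Metric.ball_mem_nhds _ (by positivity)), ?_⟩
  have hτ' : ∀ᶠ t in 𝓝[s] t₀, |τ t - τ t₀| ≤ ε' := by
    have h1 : Tendsto (fun t => |τ t - τ t₀|) (𝓝[s] t₀) (𝓝 0) := by
      have := ((hτc t₀ ht₀).tendsto.sub_const (τ t₀)).abs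
      simpa using this
    exact (h1.eventually (gt_mem_nhds hε'0)).mono fun t ht => ht.le
  filter_upwards [hτ', hw.close t₀ ht₀ ε' hε'0, hu.close t₀ ht₀ ε' hε'0, self_mem_nhdsWithin]
    with t e1 e2 e3 ht p hp p' hp'
  obtain ⟨⟨X, y⟩, z⟩ := p
  obtain ⟨⟨X', y'⟩, z'⟩ := p'
  obtain ⟨hz1, hz2⟩ := hr z hp
  obtain ⟨hz1', hz2'⟩ := hr z' hp'
  have hr0 : 0 < ‖z₀‖ / 2 := by positivity
  -- the core part
  set ω : ℂ → ℂ := fun z => τ t • w t z - τ t₀ • w t₀ z with hω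
  have hω' : ∀ z, ω z = τ t • (w t z - w t₀ z) + (τ t - τ t₀) • w t₀ z := by
    intro z
    rw [hω, smul_sub, sub_smul]
    ring
  have a1 : ∀ z, z ≠ 0 → ‖ω z‖ ≤ (2 + C) * ε' := by
    intro z hz
    rw [hω' z]
    refine (norm_add_le _ _).trans ?_
    rw [norm_smul, norm_smul, Real.norm_eq_abs, Real.norm_eq_abs, abs_of_nonneg (hτ t ht).1]
    have f1 := e2.1 1 z one_ne_zero hz
    have f2 := hw.bd t₀ ht₀ 1 z one_ne_zero hz
    have f3 : τ t * ‖w t z - w t₀ z‖ ≤ 1 * ε' :=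
      mul_le_mul (hτ t ht).2 f1 (norm_nonneg _) zero_le_one
    have f4 : |τ t - τ t₀| * ‖w t₀ z‖ ≤ ε' * 1 :=
      mul_le_mul e1 f2 (norm_nonneg _) hε'0.le
    have f5 : 0 ≤ C * ε' := mul_nonneg hC hε'0.le
    linarith
  have a2 : ∀ z z', z ≠ 0 → z' ≠ 0 → ‖ω z - ω z'‖ ≤ (2 + C) * ε' * ‖ph z - ph z'‖ := by
    intro z z' hz hz'
    have e : ω z - ω z' = τ t • ((w t z - w t₀ z) - (w t z' - w t₀ z')) +
        (τ t - τ t₀) • (w t₀ z - w t₀ z') := by
      rw [hω' z, hω' z', smul_sub (τ t) (w t z - w t₀ z), smul_sub (τ t - τ t₀)]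
      abel
    rw [e]
    refine (norm_add_le _ _).trans ?_
    rw [norm_smul, norm_smul, Real.norm_eq_abs, Real.norm_eq_abs, abs_of_nonneg (hτ t ht).1]
    have f1 := e2.2 1 z 1 z' one_ne_zero hz one_ne_zero hz'
    have f2 := hw.ang t₀ ht₀ 1 z 1 z' one_ne_zero hz one_ne_zero hz'
    rw [sub_self, norm_zero, zero_add] at f1 f2
    have f3 : τ t * ‖(w t z - w t₀ z) - (w t z' - w t₀ z')‖ ≤ 1 * (ε' * ‖ph z - ph z'‖) :=
      mul_le_mul (hτ t ht).2 f1 (norm_nonneg _) zero_le_one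
    have f4 : |τ t - τ t₀| * ‖w t₀ z - w t₀ z'‖ ≤ ε' * (C * ‖ph z - ph z'‖) :=
      mul_le_mul e1 f2 (norm_nonneg _) hε'0.le
    have f5 : 0 ≤ ε' * ‖ph z - ph z'‖ := mul_nonneg hε'0.le (norm_nonneg _)
    calc _ ≤ 1 * (ε' * ‖ph z - ph z'‖) + ε' * (C * ‖ph z - ph z'‖) := add_le_add f3 f4
      _ ≤ _ := by
        have : (2 + C) * ε' * ‖ph z - ph z'‖ = 1 * (ε' * ‖ph z - ph z'‖) +
          ε' * (C * ‖ph z - ph z'‖) + ε' * ‖ph z - ph z'‖ := by ring
        rw [this]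
        linarith
  have b1 := core_small (l := l) (y := y) (y' := y') hl hr0 (δ := (2 + C) * ε') (by positivity)
    a1 a2 hz1 hz1' hz2'
  have b2 := window_small (l := l) (y := y) (y' := y') hl hr0 hε'0.le
    (Δ := fun y z => u t y z - u t₀ y z) e3.1 e3.2 hz1 hz1' hz2 hz2'
  -- the norm of the difference of the points
  have n1 : ‖y - y'‖ ≤ ‖(((X, y), z) : (E × ℂ) × ℂ) - ((X', y'), z')‖ := by
    have h1 := norm_fst_le ((((X, y), z) : (E × ℂ) × ℂ) - ((X', y'), z'))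
    have h2 := norm_snd_le ((((X, y), z) : (E × ℂ) × ℂ) - ((X', y'), z')).1
    exact h2.trans h1
  have n2 : ‖z - z'‖ ≤ ‖(((X, y), z) : (E × ℂ) × ℂ) - ((X', y'), z')‖ :=
    norm_snd_le ((((X, y), z) : (E × ℂ) × ℂ) - ((X', y'), z'))
  set N : ℝ := ‖(((X, y), z) : (E × ℂ) × ℂ) - ((X', y'), z')‖ with hN
  have hN0 : 0 ≤ N := norm_nonneg _
  have e : (pk l τ w u t y z - pk l τ w u t₀ y z) - (pk l τ w u t y' z' - pk l τ w u t₀ y' z') =
      ((‖z‖ - bm l y z) • ω z - (‖z'‖ - bm l y' z') • ω z') +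
      (bm l y z • (u t y z - u t₀ y z) - bm l y' z' • (u t y' z' - u t₀ y' z')) := by
    have e4 : ∀ y z, pk l τ w u t y z - pk l τ w u t₀ y z =
        (‖z‖ - bm l y z) • ω z + bm l y z • (u t y z - u t₀ y z) := by
      intro y z
      rw [pk, pk, hω]
      simp only [smul_sub, smul_smul]
      rw [mul_comm (‖z‖ - bm l y z) (τ t), mul_comm (‖z‖ - bm l y z) (τ t₀)]
      abel
    rw [e4, e4]
    abel
  show ‖(pk l τ w u t y z - pk l τ w u t₀ y z) - (pk l τ w u t y' z' - pk l τ w u t₀ y' z')‖ ≤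
    ε * N
  rw [e]
  refine (norm_add_le _ _).trans ?_
  calc _ ≤ (2 + C) * ε' * (l * ‖y - y'‖ + 5 * ‖z - z'‖) +
        ε' * (2 * l * ‖y - y'‖ + 5 * ‖z - z'‖) := add_le_add b1 b2
    _ ≤ (2 + C) * ε' * (l * N + 5 * N) + ε' * (2 * l * N + 5 * N) := by
        gcongr
    _ ≤ (2 + C) * ε' * (l * N + 5 * N) + (2 + C) * ε' * (2 * l * N + 5 * N) := by
        refine add_le_add le_rfl (mul_le_mul_of_nonneg_right ?_ (by positivity))
        nlinarith
    _ = ε * N := by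
        have h5 : ε = M * ε' := by rw [hε']; field_simp
        rw [h5, hM]
        ring

/-- **Static regularity suffices.** -/
theorem tame_of_static {L : ℝ} {B : E × ℂ → ℂ} (hB : Tame (univ : Set Unit) L fun _ => B)
    (hl : 0 ≤ l) (hτ : ∀ t ∈ s, τ t ∈ Icc (0 : ℝ) 1) (hτc : ContinuousOn τ s)
    (hw : Phs s C fun t _ z => w t z) (hu : Phs s C u)
    (hreg : ∀ t₀ ∈ s, ∀ (X₀ : E) (y₀ z₀ : ℂ), z₀ ≠ 0 →
      0 ≤ (B (X₀, y₀) + pk l τ w u t₀ y₀ z₀).re →
      RegAt (univ : Set Unit) (fun _ (p : (E × ℂ) × ℂ) => B p.1 + pk l τ w u t₀ p.1.2 p.2) ()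
        ((X₀, y₀), z₀)) :
    Tame s (2 * (1 + C)) (fun t (p : (E × ℂ) × ℂ) => B p.1 + pk l τ w u t p.1.2 p.2) := by
  have hB' : Tame s L (fun _ : Θ => B) :=
    hB.param (φ := fun _ : Θ => ()) continuousOn_const fun _ _ => mem_univ _
  refine tame_of_pre hB' (preLink_pk hl hτ hτc hw hu) fun t₀ ht₀ X₀ y₀ z₀ hz₀ h0 => ?_
  refine regAt_of_limit (hreg t₀ ht₀ X₀ y₀ z₀ hz₀ h0) ?_
  exact (smallLip_pk (E := E) (X₀ := X₀) (y₀ := y₀) hl hτ hτc hw hu ht₀ hz₀).congr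
    fun t p => by ring

end Pk

/-! ### Phases from lifts -/

theorem norm_ei_sub_le (x y : ℝ) : ‖ei x - ei y‖ ≤ |x - y| := by
  have h1 : ‖Complex.exp (Complex.I * ((x - y : ℝ) : ℂ)) - 1‖ ≤ ‖x - y‖ :=
    Real.norm_exp_I_mul_ofReal_sub_one_le (x := x - y)
  have e : ei x - ei y = ei y * (Complex.exp (Complex.I * ((x - y : ℝ) : ℂ)) - 1) := by
    have e1 : Complex.exp (Complex.I * ((x - y : ℝ) : ℂ)) = ei (x - y) := by
      rw [ei, mul_comm]
    have e2 : ei x = ei y * ei (x - y) := by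
      rw [← ei_add]
      congr 1
      ring
    rw [e1, e2]
    ring
  rw [e, norm_mul, norm_ei, one_mul]
  exact h1

/-- Phases which depend linearly on the parameter. -/
theorem phs_of_lin {A R : ℝ → ℝ → ℝ} {KA KR D : ℝ} (hKA : 0 ≤ KA) (hKR : 0 ≤ KR) (hD : 0 ≤ D)
    (hA : ∀ α g α' g', |A α g - A α' g'| ≤ KA * (|α - α'| + |g - g'|))
    (hR : ∀ α g α' g', |R α g - R α' g'| ≤ KR * (|α - α'| + |g - g'|))
    (hRD : ∀ α g, |R α g| ≤ D)
    (hA1 : ∀ α g, ei (A (α + 2 * Real.pi) g) = ei (A α g))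
    (hA2 : ∀ α g, ei (A α (g + 2 * Real.pi)) = ei (A α g))
    (hR1 : ∀ α g, R (α + 2 * Real.pi) g = R α g)
    (hR2 : ∀ α g, R α (g + 2 * Real.pi) = R α g) :
    Phs {p : ℝ × ℝ | p.2 ∈ Icc (0 : ℝ) 1} ((KA + KR) * (Real.pi / 2))
      (fun p y z => ei (A y.arg z.arg + p.2 * R y.arg z.arg)) := by
  have hpi := Real.pi_pos
  have hlip : ∀ t ∈ Icc (0 : ℝ) 1, ∀ α g α' g',
      ‖ei (A α g + t * R α g) - ei (A α' g' + t * R α' g')‖ ≤
        (KA + KR) * (|α - α'| + |g - g'|) := by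
    intro t ht α g α' g'
    refine (norm_ei_sub_le _ _).trans ?_
    have e : A α g + t * R α g - (A α' g' + t * R α' g') =
        (A α g - A α' g') + t * (R α g - R α' g') := by ring
    rw [e, add_mul]
    refine (abs_add_le _ _).trans (add_le_add (hA α g α' g') ?_)
    rw [abs_mul, abs_of_nonneg ht.1]
    calc t * |R α g - R α' g'| ≤ 1 * |R α g - R α' g'| :=
          mul_le_mul_of_nonneg_right ht.2 (abs_nonneg _)
      _ ≤ _ := by rw [one_mul]; exact hR α g α' g'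
  have hper1 : ∀ t α g, ei (A (α + 2 * Real.pi) g + t * R (α + 2 * Real.pi) g) =
      ei (A α g + t * R α g) := by
    intro t α g
    rw [ei_add, ei_add, hA1, hR1]
  have hper2 : ∀ t α g, ei (A α (g + 2 * Real.pi) + t * R α (g + 2 * Real.pi)) =
      ei (A α g + t * R α g) := by
    intro t α g
    rw [ei_add, ei_add, hA2, hR2]
  refine ⟨by positivity, fun p _ y z _ _ => (norm_ei _).le, fun p hp y z y' z' hy hz hy' hz' => ?_,
    fun p₀ hp₀ ε hε => ?_⟩
  · exact periodic_ang (Φ := fun α g => ei (A α g + p.2 * R α g)) (by positivity)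
      (fun g α => hper1 p.2 α g) (fun α g => hper2 p.2 α g) (hlip p.2 hp) hy hz hy' hz'
  · -- the difference
    set M : ℝ := ((KA + KR) * D + KR + D + 1) * (Real.pi / 2 + 1) with hM
    have hM0 : 0 < M := by positivity
    have h1 : ∀ᶠ p : ℝ × ℝ in 𝓝[{p : ℝ × ℝ | p.2 ∈ Icc (0 : ℝ) 1}] p₀, |p.2 - p₀.2| ≤ ε / M := by
      have h2 : Tendsto (fun p : ℝ × ℝ => |p.2 - p₀.2|) (𝓝 p₀) (𝓝 0) := by
        have h3 : Continuous fun p : ℝ × ℝ => |p.2 - p₀.2| := by fun_prop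
        have := h3.tendsto p₀
        simpa using this
      have h4 := (h2.eventually (gt_mem_nhds (show (0 : ℝ) < ε / M by positivity))).mono
        fun p hp => hp.le
      exact h4.filter_mono nhdsWithin_le_nhds
    have hdiff : ∀ (t t₀ : ℝ) (α g : ℝ), ei (A α g + t * R α g) - ei (A α g + t₀ * R α g) =
        ei (A α g + t₀ * R α g) * (ei ((t - t₀) * R α g) - 1) := by
      intro t t₀ α g
      have : ei (A α g + t * R α g) = ei (A α g + t₀ * R α g) * ei ((t - t₀) * R α g) := by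
        rw [← ei_add]
        congr 1
        ring
      rw [this]
      ring
    have hsmall : ∀ (t t₀ : ℝ) (α g : ℝ), ‖ei ((t - t₀) * R α g) - 1‖ ≤ |t - t₀| * D := by
      intro t t₀ α g
      have := norm_ei_sub_le ((t - t₀) * R α g) 0
      rw [ei_zero, sub_zero, abs_mul] at this
      exact this.trans (mul_le_mul_of_nonneg_left (hRD α g) (abs_nonneg _))
    filter_upwards [h1, self_mem_nhdsWithin] with p hp hps
    refine ⟨fun y z _ _ => ?_, fun y z y' z' hy hz hy' hz' => ?_⟩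
    · rw [hdiff, norm_mul, norm_ei, one_mul]
      refine (hsmall _ _ _ _).trans ?_
      calc |p.2 - p₀.2| * D ≤ ε / M * D := mul_le_mul_of_nonneg_right hp hD
        _ ≤ ε / M * M := by
            refine mul_le_mul_of_nonneg_left ?_ (by positivity)
            rw [hM]
            nlinarith [mul_nonneg (add_nonneg hKA hKR) hD, mul_nonneg (mul_nonneg
              (add_nonneg hKA hKR) hD) hpi.le, mul_nonneg hKR hpi.le, mul_nonneg hD hpi.le]
        _ = ε := by field_simp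
    · set δ : ℝ := |p.2 - p₀.2| with hδ
      have hδ0 : 0 ≤ δ := abs_nonneg _
      have hLip : ∀ α g α' g', ‖(ei (A α g + p.2 * R α g) - ei (A α g + p₀.2 * R α g)) -
          (ei (A α' g' + p.2 * R α' g') - ei (A α' g' + p₀.2 * R α' g'))‖ ≤
          δ * ((KA + KR) * D + KR) * (|α - α'| + |g - g'|) := by
        intro α g α' g'
        rw [hdiff, hdiff]
        set e₁ := ei (A α g + p₀.2 * R α g)
        set e₂ := ei (A α' g' + p₀.2 * R α' g')
        set f₁ := ei ((p.2 - p₀.2) * R α g)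
        set f₂ := ei ((p.2 - p₀.2) * R α' g')
        have e : e₁ * (f₁ - 1) - e₂ * (f₂ - 1) = (e₁ - e₂) * (f₁ - 1) + e₂ * (f₁ - f₂) := by ring
        rw [e]
        refine (norm_add_le _ _).trans ?_
        rw [norm_mul, norm_mul, norm_ei (A α' g' + p₀.2 * R α' g'), one_mul]
        have g1 : ‖e₁ - e₂‖ ≤ (KA + KR) * (|α - α'| + |g - g'|) := hlip p₀.2 hp₀ α g α' g'
        have g2 : ‖f₁ - 1‖ ≤ δ * D := hsmall _ _ _ _
        have g3 : ‖f₁ - f₂‖ ≤ δ * (KR * (|α - α'| + |g - g'|)) := by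
          refine (norm_ei_sub_le _ _).trans ?_
          rw [← mul_sub, abs_mul]
          exact mul_le_mul_of_nonneg_left (hR α g α' g') (abs_nonneg _)
        have g4 : ‖e₁ - e₂‖ * ‖f₁ - 1‖ ≤ (KA + KR) * (|α - α'| + |g - g'|) * (δ * D) :=
          mul_le_mul g1 g2 (norm_nonneg _) (by positivity)
        calc _ ≤ (KA + KR) * (|α - α'| + |g - g'|) * (δ * D) +
              δ * (KR * (|α - α'| + |g - g'|)) := add_le_add g4 g3
          _ = _ := by ring
      have h5 := periodic_ang (Φ := fun α g => ei (A α g + p.2 * R α g) -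
        ei (A α g + p₀.2 * R α g)) (C := δ * ((KA + KR) * D + KR)) (by positivity)
        (fun g α => by
          show ei (A (α + 2 * Real.pi) g + p.2 * R (α + 2 * Real.pi) g) -
            ei (A (α + 2 * Real.pi) g + p₀.2 * R (α + 2 * Real.pi) g) = _
          rw [hper1, hper1])
        (fun α g => by
          show ei (A α (g + 2 * Real.pi) + p.2 * R α (g + 2 * Real.pi)) -
            ei (A α (g + 2 * Real.pi) + p₀.2 * R α (g + 2 * Real.pi)) = _
          rw [hper2, hper2]) hLip hy hz hy' hz'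
      refine h5.trans (mul_le_mul_of_nonneg_right ?_ (by positivity))
      calc δ * ((KA + KR) * D + KR) * (Real.pi / 2)
          ≤ ε / M * (((KA + KR) * D + KR) * (Real.pi / 2)) := by
            rw [mul_assoc]
            exact mul_le_mul_of_nonneg_right hp (by positivity)
        _ ≤ ε / M * M := by
            refine mul_le_mul_of_nonneg_left ?_ (by positivity)
            rw [hM]
            refine mul_le_mul ?_ ?_ (by positivity) (by positivity)
            · linarith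
            · linarith
        _ = ε := by field_simp

/-- The Lipschitz constant of the phases of `mfam`. -/
noncomputable def CK (a : ℕ) (K : ℝ) : ℝ := ((a + 1) + (a + 1 + K)) * (Real.pi / 2)

theorem phs_W {a : ℕ} {K D : ℝ} {W : ℝ → ℝ} {Ω : ℝ → ℝ → ℝ} (h : Lift a K D W Ω) :
    Phs {p : ℝ × ℝ | p.2 ∈ Icc (0 : ℝ) 1} (CK a K) (fun p _ z => ei (Tau.Wt a p.2 W z.arg)) := by
  have hD : 0 ≤ D := (abs_nonneg _).trans (h.Wbd 0)
  have hK := h.K0
  have h1 := phs_of_lin (A := fun _ g => (a + 1) * g) (R := fun _ g => W g - (a + 1) * g)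
    (KA := a + 1) (KR := a + 1 + K) (D := D) (by positivity) (by positivity) hD
    (fun α g α' g' => by
      rw [← mul_sub, abs_mul, abs_of_nonneg (by positivity : (0 : ℝ) ≤ a + 1)]
      refine mul_le_mul_of_nonneg_left ?_ (by positivity)
      linarith [abs_nonneg (α - α')])
    (fun α g α' g' => by
      have e : W g - (a + 1) * g - (W g' - (a + 1) * g') = (W g - W g') - (a + 1) * (g - g') := by
        ring
      rw [e]
      refine (abs_sub _ _).trans ?_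
      rw [abs_mul, abs_of_nonneg (by positivity : (0 : ℝ) ≤ a + 1)]
      have h2 := h.Wlip g' g
      have h3 : 0 ≤ (a + 1 + K) * |α - α'| := by positivity
      nlinarith)
    (fun _ g => h.Wbd g)
    (fun _ g => rfl)
    (fun _ g => by
      show ei ((a + 1) * (g + 2 * Real.pi)) = ei ((a + 1) * g)
      have e : ((a : ℝ) + 1) * (g + 2 * Real.pi) = (a + 1) * g + ((a + 1 : ℕ) : ℝ) * (2 * Real.pi) := by
        push_cast; ring
      rw [e, ei_add, ei_nat, mul_one])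
    (fun _ g => rfl)
    (fun _ g => by
      show W (g + 2 * Real.pi) - (a + 1) * (g + 2 * Real.pi) = W g - (a + 1) * g
      rw [h.Wper]
      ring)
  have e : (fun (p : ℝ × ℝ) (_ : ℂ) (z : ℂ) => ei (Tau.Wt a p.2 W z.arg)) =
      fun p _ z => ei ((a + 1) * z.arg + p.2 * (W z.arg - (a + 1) * z.arg)) := by
    funext p y z
    rw [Tau.Wt]
    congr 1
    ring
  rw [e]
  exact h1

theorem phs_Ω {a : ℕ} {K D : ℝ} {W : ℝ → ℝ} {Ω : ℝ → ℝ → ℝ} (h : Lift a K D W Ω) :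
    Phs {p : ℝ × ℝ | p.2 ∈ Icc (0 : ℝ) 1} (CK a K)
      (fun p y z => ei (Ωt a p.2 Ω y.arg z.arg)) := by
  have hD : 0 ≤ D := (abs_nonneg _).trans (h.bd 0 0)
  have hK := h.K0
  have hlin : ∀ α g α' g' : ℝ, |α + a * g - (α' + a * g')| ≤ (a + 1) * (|α - α'| + |g - g'|) := by
    intro α g α' g'
    have e : α + a * g - (α' + a * g') = (α - α') + a * (g - g') := by ring
    rw [e]
    refine (abs_add_le _ _).trans ?_
    rw [abs_mul, abs_of_nonneg (by positivity : (0 : ℝ) ≤ a)]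
    have h1 : 0 ≤ (a : ℝ) * |α - α'| := by positivity
    have h2 := abs_nonneg (g - g')
    nlinarith
  have h1 := phs_of_lin (A := fun α g => α + a * g) (R := fun α g => Ω α g - (α + a * g))
    (KA := a + 1) (KR := a + 1 + K) (D := D) (by positivity) (by positivity) hD hlin
    (fun α g α' g' => by
      have e : Ω α g - (α + a * g) - (Ω α' g' - (α' + a * g')) =
          ((Ω α g - Ω α' g) + (Ω α' g - Ω α' g')) - (α + a * g - (α' + a * g')) := by ring
      rw [e]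
      refine (abs_sub _ _).trans ?_
      have h2 := h.lip1 α' α g
      have h3 := h.lip2 α' g' g
      have h4 := hlin α g α' g'
      have h5 := abs_add_le (Ω α g - Ω α' g) (Ω α' g - Ω α' g')
      calc _ ≤ (K * |α - α'| + K * |g - g'|) + (a + 1) * (|α - α'| + |g - g'|) := by
            linarith
        _ = _ := by ring)
    (fun α g => h.bd α g)
    (fun α g => by
      show ei (α + 2 * Real.pi + a * g) = ei (α + a * g)
      have e : α + 2 * Real.pi + a * g = α + a * g + 2 * Real.pi := by ring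
      rw [e, ei_add, ei_two_pi, mul_one])
    (fun α g => by
      show ei (α + a * (g + 2 * Real.pi)) = ei (α + a * g)
      have e : α + a * (g + 2 * Real.pi) = α + a * g + a * (2 * Real.pi) := by ring
      rw [e, ei_add, ei_nat, mul_one])
    (fun α g => by
      show Ω (α + 2 * Real.pi) g - (α + 2 * Real.pi + a * g) = Ω α g - (α + a * g)
      rw [h.per1]
      ring)
    (fun α g => by
      show Ω α (g + 2 * Real.pi) - (α + a * (g + 2 * Real.pi)) = Ω α g - (α + a * g)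
      rw [h.per2]
      ring)
  have e : (fun (p : ℝ × ℝ) (y z : ℂ) => ei (Ωt a p.2 Ω y.arg z.arg)) =
      fun p y z => ei (y.arg + a * z.arg + p.2 * (Ω y.arg z.arg - (y.arg + a * z.arg))) := by
    funext p y z
    rw [Ωt]
    congr 1
    ring
  rw [e]
  exact h1

/-- **TAU and PHASE from static regularity.** -/
theorem tame_mfam {a : ℕ} {K D : ℝ} {W : ℝ → ℝ} {Ω : ℝ → ℝ → ℝ} (h : Lift a K D W Ω) {L l : ℝ}
    (hl : 0 ≤ l) {B : E × ℂ → ℂ} (hB : Tame (univ : Set Unit) L fun _ => B)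
    (hreg : ∀ p ∈ dom, ∀ (X₀ : E) (y₀ z₀ : ℂ), z₀ ≠ 0 →
      0 ≤ (B (X₀, y₀) + mfam a l W Ω p y₀ z₀).re →
      RegAt (univ : Set Unit) (fun _ (q : (E × ℂ) × ℂ) => B q.1 + mfam a l W Ω p q.1.2 q.2) ()
        ((X₀, y₀), z₀)) :
    Tame dom (2 * (1 + CK a K))
      (fun p (q : (E × ℂ) × ℂ) => B q.1 + mfam a l W Ω p q.1.2 q.2) := by
  have hdom : dom ⊆ {p : ℝ × ℝ | p.2 ∈ Icc (0 : ℝ) 1} := fun p hp => hp.2.1
  exact tame_of_static (τ := fun p : ℝ × ℝ => p.1) (w := fun p z => ei (Tau.Wt a p.2 W z.arg))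
    (u := fun p y z => ei (Ωt a p.2 Ω y.arg z.arg)) hB hl (fun p hp => hp.1)
    continuous_fst.continuousOn ((phs_W h).mono hdom) ((phs_Ω h).mono hdom) hreg

end Vale.Agent.P268.T.H740
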