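import Vale.Agent.P268.T.H548.Tail

/-!
# P268, topological half: links without the regularity condition

`PreLink s L' m`: the soft conditions on a link.  `Tame.of_pre`: if `F` is tame, `m` is a prelink
and `F + m` is regular at the points where the new variable does not vanish, then `F + m` is tame.
-/

set_option linter.unusedSectionVars false

namespace Vale.Agent.P268.T.H740

open Set Filter Topology

variable {E : Type*} [NormedAddCommGroup E] [NormedSpace ℝ E]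
  {Θ : Type*} [TopologicalSpace Θ]

/-- The soft conditions on a link. -/
structure PreLink (s : Set Θ) (L' : ℝ) (m : Θ → ℂ → ℂ → ℂ) : Prop where
  cont : ContinuousOn (fun p : Θ × (ℂ × ℂ) => m p.1 p.2.1 p.2.2) (s ×ˢ univ)
  hom : ∀ t ∈ s, ∀ r : ℝ, 0 ≤ r → ∀ y z : ℂ, m t (r • y) (r • z) = r • m t y z
  zero : ∀ t ∈ s, ∀ y, m t y 0 = 0
  lip : ∀ t ∈ s, ∀ y z z' : ℂ, ‖m t y z - m t y z'‖ ≤ L' * ‖z - z'‖
  small : ∀ t₀ ∈ s, ∀ y₀ : ℂ, y₀ ≠ 0 → ∀ ε > 0, ∃ U ∈ 𝓝 y₀,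
    ∀ᶠ p in 𝓝[s ×ˢ (univ : Set ℂ)] (t₀, (0 : ℂ)), ∀ y ∈ U, ∀ y' ∈ U,
      ‖m p.1 y p.2 - m p.1 y' p.2‖ ≤ ε * ‖y - y'‖

theorem PreLink.of_link {s : Set Θ} {L L' : ℝ} {m : Θ → ℂ → ℂ → ℂ} (h : Link s L L' m) :
    PreLink s L' m := ⟨h.cont, h.hom, h.zero, h.lip, h.small⟩

theorem PreLink.mono {s s' : Set Θ} (hs : s' ⊆ s) {L' : ℝ} {m : Θ → ℂ → ℂ → ℂ}
    (h : PreLink s L' m) : PreLink s' L' m where
  cont := h.cont.mono (prod_mono hs Subset.rfl)
  hom := fun t ht => h.hom t (hs ht)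
  zero := fun t ht => h.zero t (hs ht)
  lip := fun t ht => h.lip t (hs ht)
  small := fun t ht y hy ε hε => by
    obtain ⟨U, hU, hev⟩ := h.small t (hs ht) y hy ε hε
    exact ⟨U, hU, hev.filter_mono (nhdsWithin_mono _ (prod_mono hs Subset.rfl))⟩

theorem PreLink.mono_lip {s : Set Θ} {L' L'₁ : ℝ} (hL' : L' ≤ L'₁) {m : Θ → ℂ → ℂ → ℂ}
    (h : PreLink s L' m) : PreLink s L'₁ m where
  cont := h.cont
  hom := h.hom
  zero := h.zero
  lip := fun t ht y z z' => (h.lip t ht y z z').trans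
    (mul_le_mul_of_nonneg_right hL' (norm_nonneg _))
  small := h.small

theorem PreLink.param {Θ' : Type*} [TopologicalSpace Θ'] {s : Set Θ} {s' : Set Θ'} {L' : ℝ}
    {m : Θ → ℂ → ℂ → ℂ} (h : PreLink s L' m) {φ : Θ' → Θ} (hφ : ContinuousOn φ s')
    (hs : MapsTo φ s' s) : PreLink s' L' (fun t => m (φ t)) := by
  have key : ∀ t ∈ s', ∀ z : ℂ, Tendsto (fun p : Θ' × ℂ => (φ p.1, p.2))
      (𝓝[s' ×ˢ (univ : Set ℂ)] (t, z)) (𝓝[s ×ˢ (univ : Set ℂ)] (φ t, z)) := by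
    intro t ht z
    have h1 : ContinuousWithinAt (fun p : Θ' × ℂ => (φ p.1, p.2)) (s' ×ˢ (univ : Set ℂ)) (t, z) :=
      ContinuousWithinAt.prodMk ((hφ t ht).comp continuousWithinAt_fst fun p hp => hp.1)
        continuousWithinAt_snd
    exact h1.tendsto_nhdsWithin fun p hp => ⟨hs hp.1, mem_univ _⟩
  refine ⟨?_, fun t ht => h.hom _ (hs ht), fun t ht => h.zero _ (hs ht),
    fun t ht => h.lip _ (hs ht), fun t ht y hy ε hε => ?_⟩
  · have h1 : ContinuousOn (fun p : Θ' × (ℂ × ℂ) => (φ p.1, p.2)) (s' ×ˢ univ) :=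
      (hφ.comp continuousOn_fst (fun p hp => hp.1)).prodMk continuousOn_snd
    exact h.cont.comp h1 (fun p hp => ⟨hs hp.1, mem_univ _⟩)
  · obtain ⟨U, hU, hev⟩ := h.small _ (hs ht) y hy ε hε
    exact ⟨U, hU, (key t ht 0).eventually hev⟩

/-- The regularity at the points where the new variable vanishes. -/
theorem tail_zreg {s : Set Θ} {L L' : ℝ} {F : Θ → E × ℂ → ℂ} (hF : Tame s L F)
    {m : Θ → ℂ → ℂ → ℂ} (hm : PreLink s L' m) {t₀ : Θ} (ht₀ : t₀ ∈ s) {X₀ : E × ℂ}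
    (hX₀ : X₀ ≠ 0) (h0 : 0 ≤ (F t₀ X₀).re) :
    RegAt (s ×ˢ (univ : Set ℂ)) (fun (p : Θ × ℂ) (X : E × ℂ) => F p.1 X + m p.1 X.2 p.2)
      (t₀, 0) X₀ := by
  by_cases hy : X₀.2 = 0
  · have hX : X₀.1 ≠ 0 := fun e => hX₀ (Prod.ext e hy)
    refine RegAt.fst ?_
    have h1 : RegAt (s ×ˢ (univ : Set ℂ)) (fun (p : Θ × ℂ) X => F p.1 (X, p.2)) (t₀, 0) X₀.1 := by
      refine hF.zreg t₀ ht₀ X₀.1 hX ?_
      have e : (X₀.1, (0 : ℂ)) = X₀ := Prod.ext rfl hy.symm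
      rwa [e]
    have h2 : RegAt ((s ×ˢ (univ : Set ℂ)) ×ˢ (univ : Set ℂ))
        (fun (tb : (Θ × ℂ) × ℂ) X => F tb.1.1 (X, tb.2)) ((t₀, 0), X₀.2) X₀.1 := by
      rw [hy]
      refine RegAt.param (s := s ×ˢ (univ : Set ℂ)) (φ := fun tb : (Θ × ℂ) × ℂ => (tb.1.1, tb.2))
        (F := fun (p : Θ × ℂ) X => F p.1 (X, p.2)) ?_ (fun p hp => ⟨hp.1.1, mem_univ _⟩) h1
      exact (continuousWithinAt_fst.fst).prodMk continuousWithinAt_snd
    have h3 := RegAt.add_const h2 (fun tb : (Θ × ℂ) × ℂ => m tb.1.1 tb.2 tb.1.2)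
    refine h3.congr ⟨univ, univ_mem, Eventually.of_forall fun tb X _ => ?_⟩
    exact add_comm _ _
  · obtain ⟨k, hk0, hk1, A, U, hU, hev⟩ := hF.fam.reg t₀ ht₀ X₀ hX₀ h0
    have hε : 0 < (1 - k) / (2 * (‖A‖ + 1)) := by
      have : 0 ≤ ‖A‖ := norm_nonneg _
      exact div_pos (by linarith) (by linarith)
    obtain ⟨V, hV, hev'⟩ := hm.small t₀ ht₀ X₀.2 hy _ hε
    refine ⟨k + (1 - k) / 2, by linarith, by linarith, A, U ∩ Prod.snd ⁻¹' V,
      inter_mem hU (continuous_snd.continuousAt.preimage_mem_nhds hV), ?_⟩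
    have hev2 : ∀ᶠ p : Θ × ℂ in 𝓝[s ×ˢ (univ : Set ℂ)] (t₀, (0 : ℂ)), MRegOn k (F p.1) A U := by
      have h1 : Tendsto Prod.fst (𝓝[s ×ˢ (univ : Set ℂ)] (t₀, (0 : ℂ))) (𝓝[s] t₀) :=
        continuousWithinAt_fst.tendsto_nhdsWithin fun p hp => hp.1
      exact h1.eventually hev
    filter_upwards [hev2, hev'] with p e1 e2
    refine MRegOn.add_lip (e1.mono inter_subset_left) (l := (1 - k) / 2) fun x hx c hc => ?_
    have h3 := e2 _ hc.2 _ hx.2
    refine h3.trans ?_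
    have h4 : (x + A c).2 - x.2 = (A c).2 := by simp
    rw [h4]
    have h5 : ‖(A c).2‖ ≤ (‖A‖ + 1) * ‖c‖ :=
      (norm_snd_le _).trans ((A.le_opNorm c).trans
        (mul_le_mul_of_nonneg_right (by linarith) (norm_nonneg _)))
    have h6 : 0 < ‖A‖ + 1 := by positivity
    calc (1 - k) / (2 * (‖A‖ + 1)) * ‖(A c).2‖
        ≤ (1 - k) / (2 * (‖A‖ + 1)) * ((‖A‖ + 1) * ‖c‖) :=
          mul_le_mul_of_nonneg_left h5 hε.le
      _ = (1 - k) / 2 * ‖c‖ := by field_simp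

/-- **Attaching a prelink.** -/
theorem tame_of_pre {s : Set Θ} {L L' : ℝ} {F : Θ → E × ℂ → ℂ} (hF : Tame s L F)
    {m : Θ → ℂ → ℂ → ℂ} (hm : PreLink s L' m)
    (hreg : ∀ t₀ ∈ s, ∀ (X₀ : E) (y₀ z₀ : ℂ), z₀ ≠ 0 → 0 ≤ (F t₀ (X₀, y₀) + m t₀ y₀ z₀).re →
      RegAt s (fun t (p : (E × ℂ) × ℂ) => F t p.1 + m t p.1.2 p.2) t₀ ((X₀, y₀), z₀)) :
    Tame s L' (fun t (p : (E × ℂ) × ℂ) => F t p.1 + m t p.1.2 p.2) where
  fam :=
    { cont := by
        have h1 : ContinuousOn (fun p : Θ × ((E × ℂ) × ℂ) => (p.1, p.2.1)) (s ×ˢ univ) :=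
          (continuous_fst.prodMk (continuous_fst.comp continuous_snd)).continuousOn
        have h2 : ContinuousOn (fun p : Θ × ((E × ℂ) × ℂ) => (p.1, (p.2.1.2, p.2.2)))
            (s ×ˢ univ) :=
          (continuous_fst.prodMk ((continuous_snd.comp (continuous_fst.comp continuous_snd)).prodMk
            (continuous_snd.comp continuous_snd))).continuousOn
        exact (hF.fam.cont.comp h1 (fun p hp => ⟨hp.1, mem_univ _⟩)).add
          (hm.cont.comp h2 (fun p hp => ⟨hp.1, mem_univ _⟩))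
      hom := fun t ht r hr p => by
        simp only [Prod.smul_fst, Prod.smul_snd, smul_add]
        rw [hF.fam.hom t ht r hr, hm.hom t ht r hr]
      reg := by
        rintro t₀ ht₀ ⟨⟨X₀, y₀⟩, z₀⟩ hne h0
        by_cases hz : z₀ = 0
        · subst hz
          have hX : ((X₀, y₀) : E × ℂ) ≠ 0 := by
            intro h1
            apply hne
            rw [h1]
            rfl
          refine RegAt.fst ?_
          refine tail_zreg hF hm ht₀ hX ?_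
          have e : F t₀ (X₀, y₀) + m t₀ y₀ 0 = F t₀ (X₀, y₀) := by rw [hm.zero t₀ ht₀, add_zero]
          have h1 : 0 ≤ (F t₀ (X₀, y₀) + m t₀ y₀ 0).re := h0
          rwa [e] at h1
        · exact hreg t₀ ht₀ X₀ y₀ z₀ hz h0 }
  lip := fun t ht X z z' => by
    show ‖F t X + m t X.2 z - (F t X + m t X.2 z')‖ ≤ L' * ‖z - z'‖
    rw [add_sub_add_left_eq_sub]
    exact hm.lip t ht X.2 z z'
  zreg := fun t₀ ht₀ X₀ hX₀ h0 => by
    refine tail_zreg hF hm ht₀ hX₀ ?_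
    have e : F t₀ X₀ + m t₀ X₀.2 0 = F t₀ X₀ := by rw [hm.zero t₀ ht₀, add_zero]
    have h1 : 0 ≤ (F t₀ X₀ + m t₀ X₀.2 0).re := h0
    rwa [e] at h1

/-! ### Perturbation -/

/-- The difference `F t - G` is Lipschitz near `x₀`, with small constant for `t` near `t₀`. -/
def SmallLip {Z : Type*} [NormedAddCommGroup Z] (s : Set Θ) (D : Θ → E → Z) (t₀ : Θ) (x₀ : E) :
    Prop :=
  ∀ ε > 0, ∃ U ∈ 𝓝 x₀, ∀ᶠ t in 𝓝[s] t₀, ∀ x ∈ U, ∀ x' ∈ U, ‖D t x - D t x'‖ ≤ ε * ‖x - x'‖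

/-- If the limit function is regular and the difference is Lipschitz with small constants, then
the family is regular. -/
theorem regAt_of_limit {Z : Type*} [NormedAddCommGroup Z] [NormedSpace ℝ Z] {s : Set Θ}
    {F : Θ → E → Z} {G : E → Z} {t₀ : Θ} {x₀ : E} (hG : RegAt (univ : Set Unit) (fun _ => G) () x₀)
    (h : SmallLip s (fun t x => F t x - G x) t₀ x₀) : RegAt s F t₀ x₀ := by
  obtain ⟨k, hk0, hk1, A, U, hU, hev⟩ := hG
  have hGU : MRegOn k G A U := by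
    have := hev.self_of_nhdsWithin (mem_univ ())
    exact this
  have hε : 0 < (1 - k) / (2 * (‖A‖ + 1)) := by
    have : 0 ≤ ‖A‖ := norm_nonneg _
    exact div_pos (by linarith) (by linarith)
  obtain ⟨V, hV, hev'⟩ := h _ hε
  refine ⟨k + (1 - k) / 2, by linarith, by linarith, A, U ∩ V, inter_mem hU hV, ?_⟩
  filter_upwards [hev'] with t ht x hx c hc
  have h1 := hGU x hx.1 c hc.1
  have h2 := ht _ hc.2 _ hx.2
  have h6 : 0 < ‖A‖ + 1 := by positivity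
  have h3 : (1 - k) / (2 * (‖A‖ + 1)) * ‖x + A c - x‖ ≤ (1 - k) / 2 * ‖c‖ := by
    rw [add_sub_cancel_left]
    calc (1 - k) / (2 * (‖A‖ + 1)) * ‖A c‖
        ≤ (1 - k) / (2 * (‖A‖ + 1)) * ((‖A‖ + 1) * ‖c‖) := by
          refine mul_le_mul_of_nonneg_left ((A.le_opNorm c).trans ?_) hε.le
          exact mul_le_mul_of_nonneg_right (by linarith) (norm_nonneg _)
      _ = (1 - k) / 2 * ‖c‖ := by field_simp
  have e : F t (x + A c) - F t x - c =
      (G (x + A c) - G x - c) + ((F t (x + A c) - G (x + A c)) - (F t x - G x)) := by abel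
  rw [e]
  refine (norm_add_le _ _).trans ?_
  rw [add_mul]
  exact add_le_add h1 (h2.trans h3)

theorem SmallLip.add {Z : Type*} [NormedAddCommGroup Z] {s : Set Θ} {D D' : Θ → E → Z} {t₀ : Θ}
    {x₀ : E} (h : SmallLip s D t₀ x₀) (h' : SmallLip s D' t₀ x₀) :
    SmallLip s (fun t x => D t x + D' t x) t₀ x₀ := by
  intro ε hε
  obtain ⟨U, hU, hev⟩ := h (ε / 2) (half_pos hε)
  obtain ⟨U', hU', hev'⟩ := h' (ε / 2) (half_pos hε)
  refine ⟨U ∩ U', inter_mem hU hU', ?_⟩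
  filter_upwards [hev, hev'] with t e1 e2 x hx x' hx'
  have e : D t x + D' t x - (D t x' + D' t x') = (D t x - D t x') + (D' t x - D' t x') := by abel
  rw [e]
  refine (norm_add_le _ _).trans ?_
  have := e1 x hx.1 x' hx'.1
  have := e2 x hx.2 x' hx'.2
  linarith

end Vale.Agent.P268.T.H740
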