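import Vale.Agent.P268.T.H548.Defs
import Vale.Agent.P268.T.H740.Pre

/-!
# P268, topological half: Lipschitz estimates for functions of the angles
-/

set_option linter.unusedSectionVars false

namespace Vale.Agent.P268.T.H740

open Set Filter Topology

theorem norm_ph {z : ℂ} (hz : z ≠ 0) : ‖ph z‖ = 1 := by
  rw [ph, norm_div, Complex.norm_real, norm_norm, div_self (norm_ne_zero_iff.mpr hz)]

theorem norm_smul_ph (z : ℂ) : ((‖z‖ : ℝ) : ℂ) * ph z = z := by
  rcases eq_or_ne z 0 with rfl | hz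
  · simp
  · rw [ph, mul_div_cancel₀]
    exact_mod_cast norm_ne_zero_iff.mpr hz

theorem ph_smul {r : ℝ} (hr : 0 < r) (z : ℂ) : ph (r • z) = ph z := by
  rw [ph, ph, norm_smul, Real.norm_eq_abs, abs_of_pos hr, Complex.real_smul, Complex.ofReal_mul]
  rw [mul_div_mul_left]
  exact_mod_cast hr.ne'

theorem ph_eq_exp {z : ℂ} (hz : z ≠ 0) : ph z = Complex.exp (Complex.I * Complex.arg z) := by
  have h1 := Complex.norm_mul_exp_arg_mul_I z
  have h2 : ((‖z‖ : ℝ) : ℂ) ≠ 0 := by exact_mod_cast norm_ne_zero_iff.mpr hz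
  rw [ph, div_eq_iff h2, mul_comm Complex.I, mul_comm]
  exact h1.symm

theorem continuousAt_ph {z : ℂ} (hz : z ≠ 0) : ContinuousAt ph z := by
  refine ContinuousAt.div continuousAt_id (Complex.continuous_ofReal.comp
    continuous_norm).continuousAt ?_
  exact_mod_cast norm_ne_zero_iff.mpr hz

/-- The arc is at most `π / 2` times the chord. -/
theorem abs_le_chord {δ : ℝ} (h : |δ| ≤ Real.pi) :
    |δ| ≤ Real.pi / 2 * ‖Complex.exp (Complex.I * δ) - 1‖ := by
  have h1 : ‖Complex.exp (Complex.I * δ) - 1‖ = ‖2 * Real.sin (δ / 2)‖ :=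
    Complex.norm_exp_I_mul_ofReal_sub_one δ
  have h2 : 2 / Real.pi * |δ / 2| ≤ |Real.sin (δ / 2)| :=
    Real.mul_abs_le_abs_sin (by rw [abs_div, abs_two]; linarith)
  rw [h1, norm_mul, Real.norm_eq_abs, Real.norm_eq_abs, abs_two]
  rw [abs_div, abs_two] at h2
  have hpi := Real.pi_pos
  have h3 : |δ| = Real.pi / 2 * (2 * (2 / Real.pi * (|δ| / 2))) := by field_simp
  rw [h3]
  refine mul_le_mul_of_nonneg_left ?_ (by positivity)
  linarith

/-- The arguments of two complex numbers differ, up to a multiple of `2π`, by at most a multiple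
of the distance of the phases. -/
theorem exists_arg_shift {z z' : ℂ} (hz : z ≠ 0) (hz' : z' ≠ 0) :
    ∃ (k : ℤ) (δ : ℝ), Complex.arg z = Complex.arg z' + δ + k * (2 * Real.pi) ∧
      |δ| ≤ Real.pi / 2 * ‖ph z - ph z'‖ := by
  have h1 : ((Complex.arg (z / z') : ℝ) : Real.Angle) =
      ((Complex.arg z - Complex.arg z' : ℝ) : Real.Angle) := by
    rw [Complex.arg_div_coe_angle hz hz', Real.Angle.coe_sub]
  obtain ⟨k, hk⟩ := Real.Angle.angle_eq_iff_two_pi_dvd_sub.mp h1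
  refine ⟨-k, Complex.arg (z / z'), ?_, ?_⟩
  · push_cast
    linarith
  · have h2 := abs_le_chord (Complex.abs_arg_le_pi (z / z'))
    have h3 : ‖Complex.exp (Complex.I * Complex.arg (z / z')) - 1‖ = ‖ph z - ph z'‖ := by
      rw [← ph_eq_exp (div_ne_zero hz hz')]
      have h4 : ph (z / z') = ph z / ph z' := by
        simp only [ph, norm_div, Complex.ofReal_div]
        rw [div_div_div_comm]
      have h5 : ph z' ≠ 0 := by
        rw [← norm_ne_zero_iff, norm_ph hz']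
        exact one_ne_zero
      have h6 : ph z - ph z' = (ph z / ph z' - 1) * ph z' := by
        field_simp
      rw [h4, h6, norm_mul, norm_ph hz', mul_one]
    rwa [h3] at h2

theorem norm_mul_ph_sub_le {z z' : ℂ} (hz' : z' ≠ 0) (h : ‖z'‖ ≤ ‖z‖) :
    ‖z'‖ * ‖ph z - ph z'‖ ≤ ‖z - z'‖ := by
  have hn' : 0 < ‖z'‖ := norm_pos_iff.mpr hz'
  have hz : z ≠ 0 := by
    rw [← norm_pos_iff]
    exact hn'.trans_le h
  rw [← abs_of_nonneg (mul_nonneg (norm_nonneg z') (norm_nonneg (ph z - ph z'))),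
    ← abs_of_nonneg (norm_nonneg (z - z'))]
  refine sq_le_sq.mp ?_
  have e1 : z - z' = (‖z‖ : ℝ) • ph z - (‖z'‖ : ℝ) • ph z' := by
    rw [Complex.real_smul, Complex.real_smul, norm_smul_ph, norm_smul_ph]
  have e2 : ‖z - z'‖ ^ 2 = ‖z‖ ^ 2 + ‖z'‖ ^ 2 - 2 * (‖z‖ * ‖z'‖) * inner ℝ (ph z) (ph z') := by
    rw [e1, norm_sub_sq_real, norm_smul, norm_smul, norm_norm, norm_norm, norm_ph hz, norm_ph hz',
      inner_smul_left, inner_smul_right]
    simp only [conj_trivial]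
    ring
  have e3 : ‖ph z - ph z'‖ ^ 2 = 2 - 2 * inner ℝ (ph z) (ph z') := by
    rw [norm_sub_sq_real, norm_ph hz, norm_ph hz']
    ring
  have e4 : (inner ℝ (ph z) (ph z') : ℝ) ≤ 1 := by
    have := real_inner_le_norm (ph z) (ph z')
    rwa [norm_ph hz, norm_ph hz', one_mul] at this
  rw [mul_pow, e2, e3]
  nlinarith [mul_nonneg (sub_nonneg.mpr h) (sub_nonneg.mpr h),
    mul_nonneg (mul_nonneg hn'.le (sub_nonneg.mpr h)) (sub_nonneg.mpr e4)]

/-- Near a point off the origin, the phases are Lipschitz. -/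
theorem norm_ph_sub_le {z z' : ℂ} {r : ℝ} (hr : 0 < r) (hz : r ≤ ‖z‖) (hz' : r ≤ ‖z'‖) :
    ‖ph z - ph z'‖ ≤ r⁻¹ * ‖z - z'‖ := by
  have h0 : z ≠ 0 := norm_pos_iff.mp (hr.trans_le hz)
  have h0' : z' ≠ 0 := norm_pos_iff.mp (hr.trans_le hz')
  rw [← div_eq_inv_mul, le_div_iff₀ hr, mul_comm]
  rcases le_total ‖z'‖ ‖z‖ with h | h
  · exact (mul_le_mul_of_nonneg_right hz' (norm_nonneg _)).trans (norm_mul_ph_sub_le h0' h)
  · rw [norm_sub_rev (ph z), norm_sub_rev z]
    exact (mul_le_mul_of_nonneg_right hz (norm_nonneg _)).trans (norm_mul_ph_sub_le h0 h)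

/-- Doubly periodic Lipschitz functions of the angles. -/
theorem periodic_ang {V : Type*} [SeminormedAddCommGroup V] {Φ : ℝ → ℝ → V} {C : ℝ} (hC : 0 ≤ C)
    (h1 : ∀ g, Function.Periodic (fun al => Φ al g) (2 * Real.pi))
    (h2 : ∀ al, Function.Periodic (fun g => Φ al g) (2 * Real.pi))
    (hL : ∀ al g al' g', ‖Φ al g - Φ al' g'‖ ≤ C * (|al - al'| + |g - g'|))
    {y z y' z' : ℂ} (hy : y ≠ 0) (hz : z ≠ 0) (hy' : y' ≠ 0) (hz' : z' ≠ 0) :
    ‖Φ (Complex.arg y) (Complex.arg z) - Φ (Complex.arg y') (Complex.arg z')‖ ≤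
      C * (Real.pi / 2) * (‖ph y - ph y'‖ + ‖ph z - ph z'‖) := by
  obtain ⟨k, δ, hk, hδ⟩ := exists_arg_shift hy hy'
  obtain ⟨k', δ', hk', hδ'⟩ := exists_arg_shift hz hz'
  have e1 : Φ (Complex.arg y) (Complex.arg z) =
      Φ (Complex.arg y' + δ) (Complex.arg z' + δ') := by
    rw [hk, hk']
    have e2 := (h1 (Complex.arg z' + δ' + k' * (2 * Real.pi))).int_mul k (Complex.arg y' + δ)
    have e3 := (h2 (Complex.arg y' + δ)).int_mul k' (Complex.arg z' + δ')
    exact e2.trans e3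
  rw [e1]
  refine (hL _ _ _ _).trans ?_
  rw [add_sub_cancel_left, add_sub_cancel_left, mul_assoc]
  refine mul_le_mul_of_nonneg_left ?_ hC
  rw [mul_add]
  exact add_le_add hδ hδ'

end Vale.Agent.P268.T.H740
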