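import Vale.Agent.P268.T.H740.Ang
import Vale.Agent.P268.T.A306.TauDef

/-!
# P268, topological half: the soft properties of the links `plk`

`Phs s C u`: families of phases `u t y z`, Lipschitz functions of the angles.  `pk τ l w u` is the
link with core phases `w` and phases `u`.  It is a prelink, and it depends on the parameter in a
Lipschitz-small way, so that only static regularity is needed (`tame_of_static`).
-/

set_option linter.unusedSectionVars false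

namespace Vale.Agent.P268.T.H740

open Set Filter Topology Tau

variable {E : Type*} [NormedAddCommGroup E] [NormedSpace ℝ E]
  {Θ : Type*} [TopologicalSpace Θ]

/-! ### The modulus -/

theorem bm_nonneg {l : ℝ} (hl : 0 ≤ l) (y z : ℂ) : 0 ≤ bm l y z :=
  le_min (mul_nonneg hl (norm_nonneg y)) (norm_nonneg z)

theorem bm_le_left (l : ℝ) (y z : ℂ) : bm l y z ≤ l * ‖y‖ := min_le_left _ _

theorem bm_le (l : ℝ) (y z : ℂ) : bm l y z ≤ ‖z‖ := min_le_right _ _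

theorem bm_zero_left {l : ℝ} (z : ℂ) : bm l 0 z = 0 := by
  rw [bm, norm_zero, mul_zero]
  exact min_eq_left (norm_nonneg z)

theorem bm_zero_right {l : ℝ} (hl : 0 ≤ l) (y : ℂ) : bm l y 0 = 0 := by
  rw [bm, norm_zero]
  exact min_eq_right (mul_nonneg hl (norm_nonneg y))

theorem bm_smul {r : ℝ} (hr : 0 ≤ r) (l : ℝ) (y z : ℂ) : bm l (r • y) (r • z) = r * bm l y z := by
  rw [bm, bm, norm_smul, norm_smul, Real.norm_eq_abs, abs_of_nonneg hr, mul_min_of_nonneg _ _ hr]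
  congr 1
  ring

theorem abs_bm_sub_le {l : ℝ} (hl : 0 ≤ l) (y z y' z' : ℂ) :
    |bm l y z - bm l y' z'| ≤ l * ‖y - y'‖ + ‖z - z'‖ := by
  refine (abs_min_sub_min_le_max _ _ _ _).trans ?_
  have h1 : |l * ‖y‖ - l * ‖y'‖| ≤ l * ‖y - y'‖ := by
    rw [← mul_sub, abs_mul, abs_of_nonneg hl]
    exact mul_le_mul_of_nonneg_left (abs_norm_sub_norm_le y y') hl
  have h2 : |‖z‖ - ‖z'‖| ≤ ‖z - z'‖ := abs_norm_sub_norm_le z z'
  have h3 : 0 ≤ l * ‖y - y'‖ := mul_nonneg hl (norm_nonneg _)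
  exact max_le (by linarith [norm_nonneg (z - z')]) (by linarith)

theorem abs_bm_sub_le_z (l : ℝ) (y z z' : ℂ) : |bm l y z - bm l y z'| ≤ ‖z - z'‖ := by
  refine (abs_min_sub_min_le_max _ _ _ _).trans ?_
  rw [sub_self, abs_zero]
  exact max_le (norm_nonneg _) (abs_norm_sub_norm_le z z')

theorem sub_bm (l : ℝ) (y z : ℂ) : ‖z‖ - bm l y z = max (‖z‖ - l * ‖y‖) 0 := by
  rw [bm]
  rcases le_total (l * ‖y‖) ‖z‖ with h | h
  · rw [min_eq_left h, max_eq_left (by linarith)]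
  · rw [min_eq_right h, max_eq_right (by linarith), sub_self]

theorem abs_sub_bm_sub_le_z (l : ℝ) (y z z' : ℂ) :
    |(‖z‖ - bm l y z) - (‖z'‖ - bm l y z')| ≤ ‖z - z'‖ := by
  rw [sub_bm, sub_bm]
  refine (abs_max_sub_max_le_max _ _ _ _).trans ?_
  rw [sub_self, abs_zero, sub_sub_sub_cancel_right]
  exact max_le (abs_norm_sub_norm_le z z') (norm_nonneg _)

theorem abs_sub_bm_sub_le {l : ℝ} (hl : 0 ≤ l) (y z y' z' : ℂ) :
    |(‖z‖ - bm l y z) - (‖z'‖ - bm l y' z')| ≤ l * ‖y - y'‖ + ‖z - z'‖ := by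
  rw [sub_bm, sub_bm]
  refine (abs_max_sub_max_le_max _ _ _ _).trans ?_
  rw [sub_self, abs_zero]
  have h1 : |l * ‖y‖ - l * ‖y'‖| ≤ l * ‖y - y'‖ := by
    rw [← mul_sub, abs_mul, abs_of_nonneg hl]
    exact mul_le_mul_of_nonneg_left (abs_norm_sub_norm_le y y') hl
  have h2 : |‖z‖ - ‖z'‖| ≤ ‖z - z'‖ := abs_norm_sub_norm_le z z'
  have h3 : 0 ≤ l * ‖y - y'‖ := mul_nonneg hl (norm_nonneg _)
  refine max_le ?_ (by positivity)
  have e : ‖z‖ - l * ‖y‖ - (‖z'‖ - l * ‖y'‖) = (‖z‖ - ‖z'‖) - (l * ‖y‖ - l * ‖y'‖) := by ring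
  rw [e]
  refine (abs_sub _ _).trans ?_
  linarith

theorem sub_bm_nonneg (l : ℝ) (y z : ℂ) : 0 ≤ ‖z‖ - bm l y z := sub_nonneg.mpr (bm_le l y z)

theorem continuous_bm (l : ℝ) : Continuous fun q : ℂ × ℂ => bm l q.1 q.2 :=
  (continuous_const.mul continuous_fst.norm).min continuous_snd.norm

/-! ### Families of phases -/

/-- Families of phases: bounded by one, Lipschitz in the angles, and the differences for nearby
parameters are small and Lipschitz in the angles with small constants. -/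
structure Phs (s : Set Θ) (C : ℝ) (u : Θ → ℂ → ℂ → ℂ) : Prop where
  C0 : 0 ≤ C
  bd : ∀ t ∈ s, ∀ y z, y ≠ 0 → z ≠ 0 → ‖u t y z‖ ≤ 1
  ang : ∀ t ∈ s, ∀ y z y' z', y ≠ 0 → z ≠ 0 → y' ≠ 0 → z' ≠ 0 →
    ‖u t y z - u t y' z'‖ ≤ C * (‖ph y - ph y'‖ + ‖ph z - ph z'‖)
  close : ∀ t₀ ∈ s, ∀ ε > 0, ∀ᶠ t in 𝓝[s] t₀,
    (∀ y z, y ≠ 0 → z ≠ 0 → ‖u t y z - u t₀ y z‖ ≤ ε) ∧
    ∀ y z y' z', y ≠ 0 → z ≠ 0 → y' ≠ 0 → z' ≠ 0 →
      ‖(u t y z - u t₀ y z) - (u t y' z' - u t₀ y' z')‖ ≤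
        ε * (‖ph y - ph y'‖ + ‖ph z - ph z'‖)

theorem Phs.mono {s s' : Set Θ} (hs : s' ⊆ s) {C : ℝ} {u : Θ → ℂ → ℂ → ℂ} (h : Phs s C u) :
    Phs s' C u :=
  ⟨h.C0, fun t ht => h.bd t (hs ht), fun t ht => h.ang t (hs ht),
    fun t ht ε hε => (h.close t (hs ht) ε hε).filter_mono (nhdsWithin_mono _ hs)⟩

theorem Phs.continuousWithinAt {s : Set Θ} {C : ℝ} {u : Θ → ℂ → ℂ → ℂ} (h : Phs s C u) {t₀ : Θ}
    (ht₀ : t₀ ∈ s) {y₀ z₀ : ℂ} (hy : y₀ ≠ 0) (hz : z₀ ≠ 0) :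
    ContinuousWithinAt (fun p : Θ × (ℂ × ℂ) => u p.1 p.2.1 p.2.2) (s ×ˢ univ) (t₀, (y₀, z₀)) := by
  rw [ContinuousWithinAt, tendsto_iff_norm_sub_tendsto_zero]
  rw [Metric.tendsto_nhds]
  intro ε hε
  have h1 := h.close t₀ ht₀ (ε / 2) (half_pos hε)
  have h2 : Tendsto (fun q : ℂ × ℂ => C * (‖ph q.1 - ph y₀‖ + ‖ph q.2 - ph z₀‖)) (𝓝 (y₀, z₀))
      (𝓝 0) := by
    have e1 : Tendsto (fun q : ℂ × ℂ => ph q.1 - ph y₀) (𝓝 (y₀, z₀)) (𝓝 0) := by
      have := ((continuousAt_ph hy).tendsto.comp (continuousAt_fst (p := (y₀, z₀))).tendsto)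
      simpa using this.sub_const (ph y₀)
    have e2 : Tendsto (fun q : ℂ × ℂ => ph q.2 - ph z₀) (𝓝 (y₀, z₀)) (𝓝 0) := by
      have := ((continuousAt_ph hz).tendsto.comp (continuousAt_snd (p := (y₀, z₀))).tendsto)
      simpa using this.sub_const (ph z₀)
    have e3 := (e1.norm.add e2.norm).const_mul C
    simpa using e3
  have h3 : ∀ᶠ q : ℂ × ℂ in 𝓝 (y₀, z₀), C * (‖ph q.1 - ph y₀‖ + ‖ph q.2 - ph z₀‖) < ε / 2 :=
    h2.eventually (gt_mem_nhds (half_pos hε))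
  have h4 : ∀ᶠ q : ℂ × ℂ in 𝓝 (y₀, z₀), q.1 ≠ 0 ∧ q.2 ≠ 0 :=
    (continuousAt_fst.eventually_ne hy).and (continuousAt_snd.eventually_ne hz)
  rw [nhdsWithin_prod_eq, nhdsWithin_univ]
  filter_upwards [h1.prod_mk (h3.and h4), (eventually_mem_nhdsWithin (a := t₀) (s := s)).prod_mk
    (Eventually.of_forall fun _ : ℂ × ℂ => trivial)] with p e1 e2
  rw [dist_zero_right, norm_norm]
  have e3 := e1.1.1 p.2.1 p.2.2 e1.2.2.1 e1.2.2.2
  have e4 := h.ang t₀ ht₀ p.2.1 p.2.2 y₀ z₀ e1.2.2.1 e1.2.2.2 hy hz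
  have e5 : u p.1 p.2.1 p.2.2 - u t₀ y₀ z₀ =
      (u p.1 p.2.1 p.2.2 - u t₀ p.2.1 p.2.2) + (u t₀ p.2.1 p.2.2 - u t₀ y₀ z₀) := by ring
  rw [e5]
  refine (norm_add_le _ _).trans_lt ?_
  have e6 := e1.2.1
  linarith

/-- Amplitude times phase. -/
theorem amp_phase {f : ℂ → ℝ} {g : ℂ → ℂ} {c C : ℝ} (hC : 0 ≤ C)
    (hf : ∀ z z', |f z - f z'| ≤ c * ‖z - z'‖) (hf0 : ∀ z, |f z| ≤ ‖z‖)
    (hg : ∀ z, z ≠ 0 → ‖g z‖ ≤ 1)
    (hga : ∀ z z', z ≠ 0 → z' ≠ 0 → ‖g z - g z'‖ ≤ C * ‖ph z - ph z'‖) (z z' : ℂ) :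
    ‖f z • g z - f z' • g z'‖ ≤ (c + C) * ‖z - z'‖ := by
  have key : ∀ z z' : ℂ, ‖z'‖ ≤ ‖z‖ → ‖f z • g z - f z' • g z'‖ ≤ (c + C) * ‖z - z'‖ := by
    intro z z' h
    rcases eq_or_ne z' 0 with rfl | hz'
    · have h0 : f 0 = 0 := by
        have := hf0 0
        rw [norm_zero] at this
        exact abs_nonpos_iff.mp this
      rcases eq_or_ne z 0 with rfl | hz
      · simp
      · rw [h0, zero_smul, sub_zero, norm_smul, Real.norm_eq_abs]
        have h1 := hf z 0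
        rw [h0, sub_zero] at h1
        calc |f z| * ‖g z‖ ≤ |f z| * 1 := mul_le_mul_of_nonneg_left (hg z hz) (abs_nonneg _)
          _ = |f z| := mul_one _
          _ ≤ c * ‖z - 0‖ := h1
          _ ≤ (c + C) * ‖z - 0‖ := mul_le_mul_of_nonneg_right (by linarith) (norm_nonneg _)
    · have hz : z ≠ 0 := norm_pos_iff.mp ((norm_pos_iff.mpr hz').trans_le h)
      have e : f z • g z - f z' • g z' = (f z - f z') • g z + f z' • (g z - g z') := by
        rw [sub_smul, smul_sub]; abel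
      rw [e]
      refine (norm_add_le _ _).trans ?_
      rw [norm_smul, norm_smul, Real.norm_eq_abs, Real.norm_eq_abs, add_mul]
      refine add_le_add ?_ ?_
      · calc |f z - f z'| * ‖g z‖ ≤ |f z - f z'| * 1 :=
              mul_le_mul_of_nonneg_left (hg z hz) (abs_nonneg _)
          _ ≤ c * ‖z - z'‖ := by rw [mul_one]; exact hf z z'
      · calc |f z'| * ‖g z - g z'‖ ≤ ‖z'‖ * (C * ‖ph z - ph z'‖) :=
              mul_le_mul (hf0 z') (hga z z' hz hz') (norm_nonneg _) (norm_nonneg _)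
          _ = C * (‖z'‖ * ‖ph z - ph z'‖) := by ring
          _ ≤ C * ‖z - z'‖ := mul_le_mul_of_nonneg_left (norm_mul_ph_sub_le hz' h) hC
  rcases le_total ‖z'‖ ‖z‖ with h | h
  · exact key z z' h
  · rw [norm_sub_rev, norm_sub_rev z z']
    exact key z' z h

/-- The link with core phases `w` and phases `u`. -/
noncomputable def pk (l : ℝ) (τ : Θ → ℝ) (w : Θ → ℂ → ℂ) (u : Θ → ℂ → ℂ → ℂ) (t : Θ) (y z : ℂ) : ℂ :=
  (τ t * (‖z‖ - bm l y z)) • w t z + bm l y z • u t y z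

section Pk

variable {s : Set Θ} {l C : ℝ} {τ : Θ → ℝ} {w : Θ → ℂ → ℂ} {u : Θ → ℂ → ℂ → ℂ}

theorem norm_bm_smul_le (hl : 0 ≤ l) (hu : Phs s C u) {t : Θ} (ht : t ∈ s) (y z : ℂ) :
    ‖bm l y z • u t y z‖ ≤ bm l y z := by
  rcases eq_or_ne y 0 with rfl | hy
  · rw [bm_zero_left, zero_smul, norm_zero]
  rcases eq_or_ne z 0 with rfl | hz
  · rw [bm_zero_right hl, zero_smul, norm_zero]
  · rw [norm_smul, Real.norm_eq_abs, abs_of_nonneg (bm_nonneg hl y z)]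
    exact mul_le_of_le_one_right (bm_nonneg hl y z) (hu.bd t ht y z hy hz)

theorem norm_core_le (hl : 0 ≤ l) (hτ : ∀ t ∈ s, τ t ∈ Icc (0 : ℝ) 1)
    (hw : Phs s C fun t _ z => w t z) {t : Θ} (ht : t ∈ s) (y z : ℂ) :
    ‖(τ t * (‖z‖ - bm l y z)) • w t z‖ ≤ ‖z‖ - bm l y z := by
  rcases eq_or_ne z 0 with rfl | hz
  · rw [bm_zero_right hl, norm_zero, sub_zero, mul_zero, zero_smul, norm_zero]
  · rw [norm_smul, Real.norm_eq_abs, abs_mul, abs_of_nonneg (hτ t ht).1,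
      abs_of_nonneg (sub_bm_nonneg l y z)]
    have h1 := hw.bd t ht 1 z one_ne_zero hz
    have h2 := sub_bm_nonneg l y z
    calc τ t * (‖z‖ - bm l y z) * ‖w t z‖ ≤ 1 * (‖z‖ - bm l y z) * 1 := by
          refine mul_le_mul (mul_le_mul_of_nonneg_right (hτ t ht).2 h2) h1 (norm_nonneg _)
            (by linarith)
      _ = _ := by ring

theorem norm_pk_le (hl : 0 ≤ l) (hτ : ∀ t ∈ s, τ t ∈ Icc (0 : ℝ) 1)
    (hw : Phs s C fun t _ z => w t z) (hu : Phs s C u) {t : Θ} (ht : t ∈ s) (y z : ℂ) :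
    ‖pk l τ w u t y z‖ ≤ ‖z‖ := by
  refine (norm_add_le _ _).trans ?_
  have h1 := norm_core_le hl hτ hw ht y z
  have h2 := norm_bm_smul_le hl hu ht y z
  linarith

theorem pk_zero (hl : 0 ≤ l) (t : Θ) (y : ℂ) : pk l τ w u t y 0 = 0 := by
  rw [pk, bm_zero_right hl, norm_zero, sub_zero, mul_zero, zero_smul, zero_smul, add_zero]

theorem pk_hom (hl : 0 ≤ l) (hw : Phs s C fun t _ z => w t z) (hu : Phs s C u) {t : Θ}
    (ht : t ∈ s) {r : ℝ} (hr : 0 ≤ r) (y z : ℂ) :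
    pk l τ w u t (r • y) (r • z) = r • pk l τ w u t y z := by
  rcases hr.eq_or_lt with rfl | hr
  · rw [zero_smul, zero_smul, zero_smul, pk_zero hl]
  rcases eq_or_ne z 0 with rfl | hz
  · rw [smul_zero, pk_zero hl, pk_zero hl, smul_zero]
  have hrz : r • z ≠ 0 := smul_ne_zero hr.ne' hz
  have e1 : w t (r • z) = w t z := by
    have := hw.ang t ht 1 (r • z) 1 z one_ne_zero hrz one_ne_zero hz
    rw [ph_smul hr, sub_self, sub_self, norm_zero, add_zero, mul_zero] at this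
    exact sub_eq_zero.mp (norm_le_zero_iff.mp this)
  have e2 : bm l y z • u t (r • y) (r • z) = bm l y z • u t y z := by
    rcases eq_or_ne y 0 with rfl | hy
    · rw [bm_zero_left, zero_smul, zero_smul]
    · have := hu.ang t ht (r • y) (r • z) y z (smul_ne_zero hr.ne' hy) hrz hy hz
      rw [ph_smul hr, ph_smul hr, sub_self, sub_self, norm_zero, add_zero, mul_zero] at this
      rw [sub_eq_zero.mp (norm_le_zero_iff.mp this)]
  have e3 : (τ t * (r * ‖z‖ - r * bm l y z)) • w t z =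
      r • ((τ t * (‖z‖ - bm l y z)) • w t z) := by
    rw [smul_smul]
    congr 1
    ring
  rw [pk, pk, bm_smul hr.le, e1, norm_smul, Real.norm_eq_abs, abs_of_pos hr, e3,
    mul_smul r (bm l y z), e2, smul_add]

theorem pk_lip (hl : 0 ≤ l) (hτ : ∀ t ∈ s, τ t ∈ Icc (0 : ℝ) 1)
    (hw : Phs s C fun t _ z => w t z) (hu : Phs s C u) {t : Θ} (ht : t ∈ s) (y z z' : ℂ) :
    ‖pk l τ w u t y z - pk l τ w u t y z'‖ ≤ (2 * (1 + C)) * ‖z - z'‖ := by
  have h1 : ‖(τ t * (‖z‖ - bm l y z)) • w t z - (τ t * (‖z'‖ - bm l y z')) • w t z'‖ ≤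
      (1 + C) * ‖z - z'‖ := by
    refine amp_phase (f := fun z => τ t * (‖z‖ - bm l y z)) (g := fun z => w t z) hw.C0
      (fun z z' => ?_) (fun z => ?_) (fun z hz => hw.bd t ht 1 z one_ne_zero hz)
      (fun z z' hz hz' => ?_) z z'
    · rw [← mul_sub, abs_mul, abs_of_nonneg (hτ t ht).1]
      exact mul_le_mul (hτ t ht).2 (abs_sub_bm_sub_le_z l y z z') (abs_nonneg _) zero_le_one
    · rw [abs_mul, abs_of_nonneg (hτ t ht).1, abs_of_nonneg (sub_bm_nonneg l y z)]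
      have h2 := sub_bm_nonneg l y z
      have h3 := bm_nonneg hl y z
      calc τ t * (‖z‖ - bm l y z) ≤ 1 * (‖z‖ - bm l y z) :=
            mul_le_mul_of_nonneg_right (hτ t ht).2 h2
        _ ≤ ‖z‖ := by linarith
    · have := hw.ang t ht 1 z 1 z' one_ne_zero hz one_ne_zero hz'
      rwa [sub_self, norm_zero, zero_add] at this
  have h2 : ‖bm l y z • u t y z - bm l y z' • u t y z'‖ ≤ (1 + C) * ‖z - z'‖ := by
    rcases eq_or_ne y 0 with rfl | hy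
    · rw [bm_zero_left, bm_zero_left, zero_smul, zero_smul, sub_self, norm_zero]
      have := hu.C0
      positivity
    · refine amp_phase (f := fun z => bm l y z) (g := fun z => u t y z) hu.C0
        (fun z z' => ?_) (fun z => ?_) (fun z hz => hu.bd t ht y z hy hz)
        (fun z z' hz hz' => ?_) z z'
      · rw [one_mul]
        exact abs_bm_sub_le_z l y z z'
      · rw [abs_of_nonneg (bm_nonneg hl y z)]
        exact bm_le l y z
      · have := hu.ang t ht y z y z' hy hz hy hz'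
        rwa [sub_self, norm_zero, zero_add] at this
  have e : pk l τ w u t y z - pk l τ w u t y z' =
      ((τ t * (‖z‖ - bm l y z)) • w t z - (τ t * (‖z'‖ - bm l y z')) • w t z') +
      (bm l y z • u t y z - bm l y z' • u t y z') := by
    rw [pk, pk]; abel
  rw [e]
  refine (norm_add_le _ _).trans ?_
  linarith

theorem pk_cont (hl : 0 ≤ l) (hτ : ∀ t ∈ s, τ t ∈ Icc (0 : ℝ) 1) (hτc : ContinuousOn τ s)
    (hw : Phs s C fun t _ z => w t z) (hu : Phs s C u) :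
    ContinuousOn (fun p : Θ × (ℂ × ℂ) => pk l τ w u p.1 p.2.1 p.2.2) (s ×ˢ univ) := by
  rintro ⟨t₀, y₀, z₀⟩ ⟨ht₀, -⟩
  have hb : ContinuousWithinAt (fun p : Θ × (ℂ × ℂ) => bm l p.2.1 p.2.2) (s ×ˢ univ)
      (t₀, (y₀, z₀)) := ((continuous_bm l).comp continuous_snd).continuousWithinAt
  rcases eq_or_ne z₀ 0 with rfl | hz
  · -- the function is bounded by the norm of `z`
    rw [ContinuousWithinAt, pk_zero hl]
    have h1 : Tendsto (fun p : Θ × (ℂ × ℂ) => ‖p.2.2‖) (𝓝[s ×ˢ univ] (t₀, (y₀, (0 : ℂ)))) (𝓝 0) := by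
      have h2 : Continuous fun p : Θ × (ℂ × ℂ) => ‖p.2.2‖ :=
        (continuous_snd.comp continuous_snd).norm
      have := (h2.tendsto (t₀, (y₀, (0 : ℂ)))).mono_left (nhdsWithin_le_nhds (s := s ×ˢ univ))
      simpa using this
    refine squeeze_zero_norm' ?_ h1
    filter_upwards [self_mem_nhdsWithin] with p hp
    exact norm_pk_le hl hτ hw hu hp.1 _ _
  · have hτ' : ContinuousWithinAt (fun p : Θ × (ℂ × ℂ) => τ p.1) (s ×ˢ univ) (t₀, (y₀, z₀)) :=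
      (hτc t₀ ht₀).comp continuousWithinAt_fst fun p hp => hp.1
    have hn : ContinuousWithinAt (fun p : Θ × (ℂ × ℂ) => ‖p.2.2‖) (s ×ˢ univ) (t₀, (y₀, z₀)) :=
      (continuous_snd.comp continuous_snd).norm.continuousWithinAt
    have hw' : ContinuousWithinAt (fun p : Θ × (ℂ × ℂ) => w p.1 p.2.2) (s ×ˢ univ)
        (t₀, (y₀, z₀)) := by
      have h1 := hw.continuousWithinAt ht₀ (one_ne_zero (α := ℂ)) hz
      have h2 : ContinuousWithinAt (fun p : Θ × (ℂ × ℂ) => (p.1, ((1 : ℂ), p.2.2)))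
          (s ×ˢ univ) (t₀, (y₀, z₀)) := by
        exact (by fun_prop : Continuous fun p : Θ × (ℂ × ℂ) =>
          (p.1, ((1 : ℂ), p.2.2))).continuousWithinAt
      exact ContinuousWithinAt.comp (g := fun p : Θ × (ℂ × ℂ) => w p.1 p.2.2)
        (f := fun p : Θ × (ℂ × ℂ) => (p.1, ((1 : ℂ), p.2.2))) (x := (t₀, (y₀, z₀))) h1 h2
        fun p hp => ⟨hp.1, mem_univ _⟩
    refine ContinuousWithinAt.add ((hτ'.mul (hn.sub hb)).smul hw') ?_
    rcases eq_or_ne y₀ 0 with rfl | hy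
    · show Tendsto _ _ (𝓝 (bm l 0 z₀ • u t₀ 0 z₀))
      rw [bm_zero_left, zero_smul]
      have h1 : Tendsto (fun p : Θ × (ℂ × ℂ) => bm l p.2.1 p.2.2)
          (𝓝[s ×ˢ univ] (t₀, ((0 : ℂ), z₀))) (𝓝 0) := by
        have := hb.tendsto
        simpa [bm_zero_left] using this
      refine squeeze_zero_norm' ?_ h1
      filter_upwards [self_mem_nhdsWithin] with p hp
      exact norm_bm_smul_le hl hu hp.1 _ _
    · exact hb.smul (hu.continuousWithinAt ht₀ hy hz)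

theorem pk_small (hl : 0 ≤ l) (hu : Phs s C u) {t₀ : Θ} {y₀ : ℂ} (hy₀ : y₀ ≠ 0)
    {ε : ℝ} (hε : 0 < ε) : ∃ U ∈ 𝓝 y₀,
    ∀ᶠ p in 𝓝[s ×ˢ (univ : Set ℂ)] (t₀, (0 : ℂ)), ∀ y ∈ U, ∀ y' ∈ U,
      ‖pk l τ w u p.1 y p.2 - pk l τ w u p.1 y' p.2‖ ≤ ε * ‖y - y'‖ := by
  have hn : 0 < ‖y₀‖ := norm_pos_iff.mpr hy₀
  have hC := hu.C0
  have hr : ∀ y ∈ Metric.ball y₀ (‖y₀‖ / 2), ‖y₀‖ / 2 ≤ ‖y‖ := by
    intro y hy
    rw [Metric.mem_ball, dist_eq_norm] at hy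
    have := norm_sub_norm_le y₀ y
    rw [norm_sub_rev] at this
    linarith
  refine ⟨Metric.ball y₀ (‖y₀‖ / 2), Metric.ball_mem_nhds _ (by positivity), ?_⟩
  rcases hl.eq_or_lt with rfl | hl0
  · refine Eventually.of_forall fun p y _ y' _ => ?_
    have h0 : ∀ y z : ℂ, bm 0 y z = 0 := fun y z => by
      rw [bm, zero_mul]; exact min_eq_left (norm_nonneg z)
    rw [pk, pk, h0, h0, zero_smul, zero_smul, sub_self, norm_zero]
    positivity
  have h1 : ∀ᶠ z : ℂ in 𝓝 (0 : ℂ), ‖z‖ < min (l * (‖y₀‖ / 2)) (ε * (‖y₀‖ / 2) / (C + 1)) := by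
    have h2 : Tendsto (fun z : ℂ => ‖z‖) (𝓝 0) (𝓝 0) := by
      have := (continuous_norm (E := ℂ)).tendsto 0
      rwa [norm_zero] at this
    exact h2.eventually (gt_mem_nhds (by positivity))
  rw [nhdsWithin_prod_eq, nhdsWithin_univ]
  filter_upwards [(eventually_mem_nhdsWithin (a := t₀) (s := s)).prod_mk h1] with p hp y hy y' hy'
  have e1 : ∀ y ∈ Metric.ball y₀ (‖y₀‖ / 2), bm l y p.2 = ‖p.2‖ := by
    intro y hy
    refine min_eq_right ?_
    have h3 := (hp.2.trans_le (min_le_left _ _)).le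
    exact h3.trans (mul_le_mul_of_nonneg_left (hr y hy) hl)
  rcases eq_or_ne p.2 0 with h0 | h0
  · rw [h0, pk_zero hl, pk_zero hl, sub_self, norm_zero]
    positivity
  · have hy0 : y ≠ 0 := norm_pos_iff.mp ((half_pos hn).trans_le (hr y hy))
    have hy0' : y' ≠ 0 := norm_pos_iff.mp ((half_pos hn).trans_le (hr y' hy'))
    rw [pk, pk, e1 y hy, e1 y' hy', sub_self, mul_zero, zero_smul, zero_add, zero_add,
      ← smul_sub, norm_smul, norm_norm]
    have h3 := hu.ang p.1 hp.1 y p.2 y' p.2 hy0 h0 hy0' h0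
    rw [sub_self, norm_zero, add_zero] at h3
    have h4 := norm_ph_sub_le (half_pos hn) (hr y hy) (hr y' hy')
    have h5 : ‖p.2‖ ≤ ε * (‖y₀‖ / 2) / (C + 1) := (hp.2.trans_le (min_le_right _ _)).le
    calc ‖p.2‖ * ‖u p.1 y p.2 - u p.1 y' p.2‖
        ≤ ε * (‖y₀‖ / 2) / (C + 1) * (C * ((‖y₀‖ / 2)⁻¹ * ‖y - y'‖)) := by
          refine mul_le_mul h5 (h3.trans (mul_le_mul_of_nonneg_left h4 hC)) (norm_nonneg _)
            (by positivity)
      _ = C / (C + 1) * (ε * ‖y - y'‖) := by field_simp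
      _ ≤ 1 * (ε * ‖y - y'‖) := by
          refine mul_le_mul_of_nonneg_right ?_ (by positivity)
          rw [div_le_one (by positivity)]
          linarith
      _ = _ := one_mul _

/-- **(J2)** `pk` is a prelink, with a Lipschitz constant which does not depend on `l`. -/
theorem preLink_pk (hl : 0 ≤ l) (hτ : ∀ t ∈ s, τ t ∈ Icc (0 : ℝ) 1) (hτc : ContinuousOn τ s)
    (hw : Phs s C fun t _ z => w t z) (hu : Phs s C u) :
    PreLink s (2 * (1 + C)) (pk l τ w u) where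
  cont := pk_cont hl hτ hτc hw hu
  hom := fun t ht r hr y z => pk_hom hl hw hu ht hr y z
  zero := fun t _ y => pk_zero hl t y
  lip := fun t ht y z z' => pk_lip hl hτ hw hu ht y z z'
  small := fun t₀ _ y₀ hy₀ ε hε => pk_small hl hu hy₀ hε

end Pk

end Vale.Agent.P268.T.H740
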